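import Vale.Agent.P014T.Rc.St
import Vale.Agent.P014T.Es.Ab2
import Vale.Agent.P014T.Es.Qb
import Vale.Agent.P014T.Pu.Hk
import Vale.Agent.P014T.Uy.Pt
import Vale.Agent.P014T.Rk.Adj

/-!
# P014T, block REC: the theorem of Abel with the modulus of the cusps
-/

set_option autoImplicit false
set_option linter.all false

open scoped Classical MatrixGroups UpperHalfPlane
open CongruenceSubgroup

noncomputable section

namespace Vale.Agent.P014T.Rc

open Vale.Agent.P022 hiding PA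
open Vale.Agent.P027M.M Vale.Agent.P019P Vale.Agent.P022.H218.L3
open Vale.Agent.P004M.TE (Pt)
open P004N (RN)
open Vale.Agent.P004Z (PA TcL)
open Vale.Agent.P004Z.Ar (cs mb)
open Vale.Agent.P022K.F0.Cf hiding MF
open Dc Pu
open Vale.Agent.P014T.Es (LL hz)
open Vale.Agent.P027H (wp dwp mem_of_eq)

namespace Abq

variable {τ : ℍ} {N S : ℕ} {G I : ℍ → ℂ} {a : ℕ → ℤ}

/-- a point with algebraic coordinates -/
def Ag (τ : ℍ) : Prop := ∃ z : FF, od τ (cv z) ≠ 0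

theorem Ag.lev (h : Ag τ) (Γ : Subgroup SL(2, ℤ)) : ∃ z ∈ L Γ, od τ (cv z) ≠ 0 := by
  obtain ⟨z, h⟩ := h
  obtain ⟨M, hM, m⟩ := Uy.ex_gamma z
  have := cff (Gamma M) (fi_gamma hM le_rfl)
  let P : Plk Qb (L (Gamma M)) := ⟨(pl τ).comap ((cv : FF →+* Mer).comp (algebraMap _ FF)), fun c => by
    change Reg τ (cv (algebraMap Qb FF c))
    rw [cv_alg]
    exact reg_const τ _, fun k => by
    have a : Reg τ (cv z) := (SetLike.ext_iff.1 k ⟨z, m⟩).2 (ValuationSubring.mem_top _)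
    have b : Reg τ (cv z⁻¹) := (SetLike.ext_iff.1 k ⟨z, m⟩⁻¹).2 (ValuationSubring.mem_top _)
    have n : cv z ≠ 0 := fun e => h (e ▸ od_zero τ)
    rw [map_inv₀, reg_iff, od_inv, inv_eq_zero, or_iff_right n] at b
    rw [reg_iff, or_iff_right n] at a
    omega⟩
  obtain ⟨c, k⟩ := exists_cst P (show jL _ ∈ P.1 from Uy.hl_j τ)
  exact ⟨jF - algebraMap Qb FF c, sub_mem (jF_mem Γ) (IntermediateField.algebraMap_mem _ c),
    ((Uy.Pt.pos (e := (L _).val) (P := P) fun _ => Iff.rfl).1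
      (k.resolve_left (jL_ne _ c))).ne'⟩

theorem Ag.up {α : M2} (d : 0 < α.det) (h : Ag (mb α τ)) : Ag τ :=
  let ⟨X⟩ := mdl
  let ⟨z, h⟩ := h
  ⟨X.pb α d z, by
    rwa [Uy.od_pbF, ← show mb α τ = H231.L3.gl α d • τ from UpperHalfPlane.ext
      ((P004Z.Ar.coe_mb d τ).trans (H236.L3.coe_gl_smul α d τ).symm)]⟩

theorem ag_hz (P : FreeAlgebra ℤ (PA S)) : ∀ n : ℍ → ℤ, (∀ τ, n τ ≠ 0 → Ag τ) →
    ∀ τ, hz P n τ ≠ 0 → Ag τ := by
  induction P using FreeAlgebra.induction with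
  | grade0 r => exact fun n h τ k => h τ fun e => k (by simp [e])
  | grade1 l =>
    intro n h τ k
    rw [hz, FreeAlgebra.lift_ι_apply] at k
    obtain ⟨j, -, k⟩ := Finset.exists_ne_zero_of_sum_ne_zero
      (show ∑ j, n (mb (P004N.H461.al l j) τ) ≠ 0 from k)
    exact (h _ k).up (P004Z.Ar.al_pos l.2.1 j)
  | mul a b p q => exact fun n h τ k => p _ (q n h) τ (by rwa [hz, map_mul] at k)
  | add a b p q =>
    intro n h τ k
    by_contra e
    exact k (by simp [not_not.1 (mt (p n h τ) e), not_not.1 (mt (q n h τ) e)])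

theorem eig (h : RN N G a) (hS : N ∣ S) (P : FreeAlgebra ℤ (PA S)) :
    FreeAlgebra.lift ℤ (fun l : PA S => TcL l.1) P (fun n => (a n : ℂ)) =
      (ev a P : ℂ) • fun n => (a n : ℂ) := by
  induction P using FreeAlgebra.induction with
  | grade0 r => exact funext fun n => by simp [ev]
  | grade1 l =>
    rw [ev, FreeAlgebra.lift_ι_apply, FreeAlgebra.lift_ι_apply]
    exact funext (h.te l l.2.1 fun d => l.2.2 (d.trans hS))
  | mul x y p q => simp only [ev] at *; rw [map_mul, Module.End.mul_apply, q, map_smul, p, smul_smul,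
      map_mul, Int.cast_mul, mul_comm]
  | add x y p q => simp only [ev] at *; rw [map_add, LinearMap.add_apply, p, q, map_add,
      Int.cast_add, add_smul]

end Abq

open Abq

theorem abq : ABQ := fun N G a A B w I x y h p => by
  have N4 : 4 * N ≠ 0 := mul_ne_zero four_ne_zero h.pos.ne'
  have d4 : N ∣ 4 * N := Dvd.intro_left 4 rfl
  obtain ⟨P, m, P0, hm, hP⟩ := Es.abl1 h p
  obtain ⟨Q, Q0, hQ⟩ := Rk.prj N _ G a h N4 d4
  refine ⟨_, P * Q, m, d4, (map_mul _ P Q).trans_ne (mul_ne_zero P0 Q0), fun F c k l => ?_, hm,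
    fun τ0 τ1 R0 R1 n f0 f1 v0 v1 e => ?_⟩
  · obtain ⟨κ, e⟩ := hQ F c k l
    exact ⟨κ * ev a P, by
      rw [map_mul, Module.End.mul_apply, e, show (fun n => κ * a n) = κ • fun n => (a n : ℂ) from rfl,
        map_smul, eig h d4, smul_smul]
      rfl⟩
  obtain rfl : n = hz (P * Q) (Es.orb N τ0 - Es.orb N τ1) := funext fun z =>
    Int.cast_injective (α := ℂ) (congrFun (e.trans (Es.cs_hz _ _).symm) z)
  obtain ⟨k, k0, hk⟩ := hP Q τ0 τ1 f0 f1
  refine ⟨k, k0, fun R t eR t0 t1 => ?_⟩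
  have W := p.toPw.wp h
  obtain ⟨_, _, _, _, _, q⟩ := p.par
  obtain ⟨ex, U⟩ := ex_ux (a := A) (b := B) p.lat p.g2_eq p.g3_eq (by exact_mod_cast p.disc)
  let φ : Pt A B →+ _ := mp (a' := (A : ℂ)) (b' := (B : ℂ)) (io : Qb →+* ℂ) (by simp) (by simp)
  have vl : ∀ τ c d n, P004Z.EF.Val τ (cv x) (io c) ∧ P004Z.EF.Val τ (cv y) (io d) ↔
      ex (I τ) = φ (.some c d n) := fun τ c d n => by
    rw [mp_some]
    by_cases k : I τ ∈ LL I
    · exact iff_of_false (fun e => W.pole k (val_iff.1 e.1).1) fun e =>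
        WeierstrassCurve.Affine.Point.some_ne_zero _ (e.symm.trans ((U.ker _).2 k))
    obtain ⟨_, j⟩ := U.xy _ k
    rw [j, WeierstrassCurve.Affine.Point.some.injEq, ← (val_iff.1 (p.xv τ k)).2,
      ← (val_iff.1 (p.yv τ k)).2, val_iff, val_iff, and_iff_right (val_iff.1 (p.xv τ k)).1,
      and_iff_right (val_iff.1 (p.yv τ k)).1]
    rfl
  have pv : ∀ τ R, Pv x y τ R → Ag τ ∧ ex (I τ) = φ R := fun τ _ ⟨c, d, n, e, v⟩ =>
    ⟨⟨x - algebraMap Qb FF c, by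
      obtain ⟨r, l⟩ := val_iff.1 v.1
      rw [map_sub, cv_alg, ← l]
      exact (r.sub_ev fun j => (W.cusp (Es.tend h q 1)).2 (Es.cv_mem I 1) (by
        rw [sub_eq_zero.1 j, AlgEquiv.commutes]
        exact P004Z.Ar.Fn.const_LR _)).ne'⟩, e ▸ (vl τ c d n).1 v⟩
  have key : ∀ (R : Pt A B) u, ex u = φ R → 2 • R ≠ 0 →
      2 * u ∉ LL I ∧ ∀ τ, pc x y R τ = Es.pb (LL I) I u τ ∧ (pc x y R τ ≠ 0 → Ag τ) := by
    intro R u e n2
    have n' : 2 * u ∉ LL I := fun k => n2 ((injective_iff_map_eq_zero φ).1 (mp_inj _ _ _) _ (by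
      rw [map_nsmul, ← e, ← map_nsmul, U.ker, nsmul_eq_mul]
      exact k))
    rcases R with _ | ⟨c, d, n⟩
    · exact absurd (nsmul_zero 2) n2
    refine ⟨n', fun τ => ⟨if_ctx_congr ((vl τ c d n).trans (by rw [← e, Es.ux_sub U]))
      (fun j => ?_) fun _ => rfl, fun j => ⟨_, fun l => j (ite_eq_right_iff.2 fun _ => l)⟩⟩⟩
    have j' : 2 * I τ ∉ LL I := fun l => n' (mem_of_eq (sub_mem l ((LL I).smul_mem 2 j)) (by
      simp; ring))
    rw [map_sub, cv_alg, ← (val_iff.1 ((vl τ c d n).2 (((Es.ux_sub U).2 j).trans e)).1).2,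
      (val_iff.1 (p.xv τ (Es.half j'))).2]
    exact Es.od_x W j'
  obtain ⟨u, eu⟩ := U.surj (φ t)
  obtain ⟨s, es⟩ := U.surj (φ R)
  obtain ⟨a0, b0⟩ := key t u eu t0
  obtain ⟨a1, b1⟩ := key (t + R) (u + s) (by rw [map_add, map_add, eu, es]) t1
  obtain ⟨f, n0, -, l, cu⟩ := (hk s u ((Es.ux_sub U).1 (by
    rw [es, eR, ← zsmul_eq_mul, map_zsmul, map_zsmul, map_sub, map_sub, (pv _ _ v0).2,
      (pv _ _ v1).2]
    rfl)) (Es.half a0) (Es.half a1)).fn h.pos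
  simp only [Pi.sub_apply, ← (b0 _).1, ← (b1 _).1] at l
  obtain ⟨g, m1, eg, cu'⟩ := Es.qbd0 h.pos n0 cu fun τ j => Ag.lev (by
    by_contra b
    refine j ?_
    rw [l, not_not.1 (mt (b0 τ).2 b), not_not.1 (mt (b1 τ).2 b), Pi.smul_apply,
      not_not.1 (mt (ag_hz _ _ (fun σ j => ?_) τ) b)]
    · simp
    by_contra c
    have o : ∀ ρ R, Pv x y ρ R → Es.orb N ρ σ = 0 := fun ρ R v => by_contra fun i =>
      let ⟨γ, _, i⟩ := Es.orb_ne.1 i
      c (Ag.up (α := (γ⁻¹).1) (one_pos.trans_eq (γ⁻¹).2.symm) (by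
        rw [P004Z.Ar.mb_SL, ← i, inv_smul_smul]
        exact (pv _ _ v).1))
    exact j (by rw [Pi.sub_apply, o _ _ v0, o _ _ v1, sub_zero])) _
  exact ⟨g, m1, fun j => n0 (Subtype.ext (by rw [← eg, j, map_zero]; rfl)),
    fun l _ z Q a _ => cu' l z Q a, fun τ => by rw [eg, l]⟩

end Vale.Agent.P014T.Rc
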