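import Vale.Agent.P014T.Rc.St
import Vale.Agent.P014T.Sb.Ev2

/-!
# P014T, block REC: the row `EVAL`
-/

set_option autoImplicit false

namespace Vale.Agent.P014T.Rc

theorem evl : EVAL := fun _ _ h M n l a b c d => Sb.eval2 h M n l a b c d

end Vale.Agent.P014T.Rc
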