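import Vale.Agent.P014T.Rc.St
import Vale.Agent.P014T.St
import Vale.Agent.P014T.Rp.Per
import Vale.Agent.P014T.Rk.Lwc

/-!
# P014T, block REC: a good symbol, and the reciprocity law for even weights
-/

set_option autoImplicit false
set_option linter.all false

open scoped Classical MatrixGroups Real ComplexConjugate UpperHalfPlane
open CongruenceSubgroup NumberField ModularGroup

noncomputable section

namespace Vale.Agent.P014T.Rc

open Vale.Agent.P022 (Qb GQ)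
open Vale.Agent.P022D.W (dec)
open Vale.Agent.P004S.Ga (K O)
open Vale.Agent.P004F.Rc (mq hn)
open Vale.Agent.P004M.TE (Pt)
open P004N (RN)
open Vale.Agent.P027M.M (Mdl FF io)
open Ah (Ind am)
open Sg (sF)
open Pu (ParY)
open Es (LL sy)
open Rk (Lw)
open Cp (Zn cp)
open Wm (Fx)
open Top (w0)

variable {N : ℕ} {G I : ℍ → ℂ} {a : ℕ → ℤ} {A B : ℤ} {w : ℕ} {x y : P022.H218.L3.Mer}

/-- the shape of the lattice -/
theorem shape (p : ParY N a A B w I x y) : ∃ r v : ℝ, 0 < w0 A B ∧ 0 < v ∧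
    ∀ z, z ∈ LL I ↔ ∃ m n : ℤ, z = m * w0 A B + n * (r + v * Complex.I) := by
  obtain ⟨u, v, u0, v0, h, e⟩ := Rp.rp (Lc.Wq (Top.sI A B)) p.lat one_pos
    (by rw [p.g2_eq]; simp [Top.sI, WeierstrassCurve.c₄, WeierstrassCurve.b₂, WeierstrassCurve.b₄]
        ring)
    (by rw [p.g3_eq]; simp [Top.sI, WeierstrassCurve.c₆, WeierstrassCurve.b₂, WeierstrassCurve.b₄,
          WeierstrassCurve.b₆]
        ring)
  have d : (Lc.Wq (Top.sI A B)).Δ = (-16 * (4 * A ^ 3 + 27 * B ^ 2) : ℤ) := by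
    simp [Top.sI, WeierstrassCurve.Δ, WeierstrassCurve.b₂, WeierstrassCurve.b₄, WeierstrassCurve.b₆,
      WeierstrassCurve.b₈]
    ring
  have k : w0 A B = u := by
    rw [w0, e, d, Bt.p0, one_mul]
    by_cases c : 4 * A ^ 3 + 27 * B ^ 2 < 0
    · rw [if_pos c, if_pos (Int.cast_pos.2 (by omega))]
      simp
    · rw [if_neg c, if_neg fun c' => c (by have := Int.cast_pos.1 c'; omega)]
      simp
  exact ⟨_, v, k ▸ u0, v0, k ▸ h⟩

theorem sy_bad (r : RN N G a) (p : ParY N a A B w I x y) {γ : SL(2, ℤ)}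
    (h : (N : ℤ) ∣ γ 1 0 ∨ (N : ℤ) ∣ γ 1 1) : (sy I γ).im = 0 := by
  obtain ⟨A', B', Λ, x', y', q⟩ := p.par
  have s : (Es.cv I S).im = 0 := Complex.conj_eq_iff_im.1 (by
    rw [← Es.cv_mi r q, ← Es.cv_neg r q S]
    congr 1
    decide)
  rcases h with h | h
  · have m : γ ∈ Gamma0 N := Gamma0_mem.2 ((ZMod.intCast_zmod_eq_zero_iff_dvd _ _).2 h)
    rw [sy, Es.cv_left r q m S UpperHalfPlane.I, Es.cv_per r q m UpperHalfPlane.I]
    simp [s]
  · have m : γ * S ∈ Gamma0 N := Gamma0_mem.2 ((ZMod.intCast_zmod_eq_zero_iff_dvd _ _).2 (by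
      simpa [coe_S, Matrix.mul_apply, Fin.sum_univ_two] using h))
    have e : γ * S * S = -γ := by rw [mul_assoc, show S * S = -1 by decide, mul_neg_one]
    rw [sy, ← Es.cv_neg r q γ, ← e, Es.cv_left r q m S UpperHalfPlane.I,
      Es.cv_per r q m UpperHalfPlane.I]
    simp [s]

/-- **a good symbol with an odd imaginary coordinate** -/
theorem gam (r : RN N G a) (p : ParY N a A B w I x y) : ∃ (γ : SL(2, ℤ)) (μ : ℤ) (c : ℝ),
    ¬ (N : ℤ) ∣ γ 1 0 ∧ ¬ (N : ℤ) ∣ γ 1 1 ∧ Odd μ ∧ 0 < c ∧ Vol (LL I) c ∧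
      (sy I γ).im * w0 A B = μ * c := by
  obtain ⟨t, v, u0, v0, h⟩ := shape p
  obtain ⟨A', B', Λ, x', y', q⟩ := p.par
  have vol : Vol (LL I) (w0 A B * v) := ⟨_, _, h, by simp [abs_of_pos, u0, v0]⟩
  by_contra! c
  have k : ∀ z ∈ Submodule.span ℤ (Set.range (sy I)), ∃ k : ℤ, z.im = 2 * k * v := fun z m => by
    induction m using Submodule.span_induction with
    | mem _ k =>
      obtain ⟨γ, rfl⟩ := k
      by_cases b : (N : ℤ) ∣ γ 1 0 ∨ (N : ℤ) ∣ γ 1 1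
      · exact ⟨0, by simp [sy_bad r p b]⟩
      obtain ⟨m, n, e⟩ := (h _).1 (Es.sy_mem I γ)
      have e' : (sy I γ).im = n * v := by simp [e]
      obtain ⟨k, rfl⟩ := Int.not_odd_iff_even.1 fun o => c γ n _ (not_or.1 b).1 (not_or.1 b).2 o
        (mul_pos u0 v0) vol (by rw [e']; ring)
      exact ⟨k, by rw [e']; push_cast; ring⟩
    | zero => exact ⟨0, by simp⟩
    | add _ _ _ _ i j =>
      obtain ⟨i, e⟩ := i
      obtain ⟨j, e'⟩ := j
      exact ⟨i + j, by rw [Complex.add_im, e, e']; push_cast; ring⟩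
    | smul n _ _ i =>
      obtain ⟨i, e⟩ := i
      exact ⟨n * i, by rw [zsmul_eq_mul, Complex.mul_im, e]; simp; ring⟩
  obtain ⟨j, e⟩ := k (t + v * Complex.I) (Es.manin r q ▸ (h _).2 ⟨0, 1, by simp⟩)
  have : ((2 * j : ℤ) : ℝ) = (1 : ℤ) := mul_right_cancel₀ v0.ne' (by simpa using e.symm)
  have := Int.cast_injective this
  omega

variable {l c d : ℕ} {ω : ZMod l → ℤ}

theorem sm_neg (h : ∀ x, ω (-x) = ω x) (x : ZMod l) : sm c d ω (-x) = sm c d ω x := by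
  simp only [sm, mul_neg, h]

/-- multiplicative weights -/
theorem sm_mul {s t : ℤ} (hc : c.Coprime l) (hd : d.Coprime l)
    (h : ∀ x, ω ((c : ZMod l)⁻¹ * x) = s * ω x) (k : ∀ x, ω ((d : ZMod l)⁻¹ * x) = t * ω x)
    (x : ZMod l) : sm c d ω x = (c ^ 2 - c * s) * (d ^ 2 - d * t) * ω x := by
  have e : (c * d : ZMod l)⁻¹ = (c : ZMod l)⁻¹ * (d : ZMod l)⁻¹ :=
    ZMod.inv_eq_of_mul_eq_one _ _ _ (by
      rw [mul_mul_mul_comm, ZMod.coe_mul_inv_eq_one _ hc, ZMod.coe_mul_inv_eq_one _ hd, mul_one])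
  rw [sm, e, mul_assoc (c : ZMod l)⁻¹, h, h, k]
  ring

/-- **the reciprocity law for even weights** -/
def RCE (Kz : KZ) : Prop := ∀ (X : Mdl) N G a A B (w : ℕ) I x y
  (hD : 4 * ((A : ℤ) : ℚ) ^ 3 + 27 * ((B : ℤ) : ℚ) ^ 2 ≠ 0), RN N G a →
  ParY N a A B w I (P027M.M.cv x) (P027M.M.cv y) → ∃ γ : SL(2, ℤ), ¬ (N : ℤ) ∣ γ 1 0 ∧
    ¬ (N : ℤ) ∣ γ 1 1 ∧ ∀ ι P (h : Ind ι P) (lg : Fx A B (dec P) →+ K), Lc.Lk ι lg →
  ∃ R : Fx A B (dec P), lg R ≠ 0 ∧ ∀ M n l : ℕ, l = M * 2 ^ n → 0 < n → 0 < M → 2 ∣ M → N ∣ l →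
    ∃ u : ℤ, Odd u ∧ ∀ (c d : ℕ) z, Ad N l c d γ →
      Kz X A B x y l n (sF c (rg l γ 0)) (sF d (rg l γ 1)) z →
      ∀ (J : Type) [Fintype J] s p (κ : J → ℤ) (ω : ZMod l → ℤ) R', Wt l (dec P) s p κ ω →
        (∀ x, ω (-x) = ω x) → 2 ^ n • R' = R.1 → ∃ (b : Qb) (θ : K), am θ = ι b ∧
          io b * w0 A B = Lw a (fun n => sm c d ω n) ∧
          Zn (dec P) n (zw s p (fun i => ω (κ i)) z) ∧
          4 • Iv.iv P (cp (Ki.wp hD) n (Bt.dd A B R') (zw s p (fun i => ω (κ i)) z)) =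
            mq (hn n * lg R * (4 * u * θ))

theorem REC.even {Kz : KZ} (H : REC Kz) : RCE Kz := by
  intro X N G a A B w I x y hD r p
  obtain ⟨γ, μ, c0, g0, g1, o, c1, vol, e⟩ := gam r p
  refine ⟨γ, g0, g1, fun ι P h lg lk => ?_⟩
  obtain ⟨R, l0, H⟩ := H X N G a A B w I x y hD ι P h lg r p lk
  refine ⟨R, l0, fun M n l el n0 M0 M2 Nl => ?_⟩
  obtain ⟨u, ou, H⟩ := H M n l el n0 M0 M2 Nl
  refine ⟨-(u * μ), (ou.mul o).neg, fun c d z ad kz J _ s q κ ω R' wt ev hR => ?_⟩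
  obtain ⟨b, θ, e1, e2, zn, e3⟩ := H c d γ z ad kz J s q κ ω R' c0 wt hR vol
  have m0 {F : Type} [Field F] [CharZero F] : (μ : F) ≠ 0 :=
    Int.cast_ne_zero.2 fun k => by simp [k] at o
  refine ⟨b / (-2 * μ), θ / (-2 * μ), by simp [e1, map_ofNat], ?_, zn, ?_⟩
  · have : (c0 : ℂ) ≠ 0 := Complex.ofReal_ne_zero.2 c1.ne'
    have e4 : ((sy I γ).im : ℂ) * w0 A B = μ * c0 := by exact_mod_cast e
    have e5 := Complex.sub_conj (sy I γ)
    simp only [sm_neg ev] at e2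
    simp only [map_div₀, map_mul, map_neg, map_ofNat, map_intCast]
    push_cast at e5
    rw [div_mul_eq_mul_div, div_eq_iff (mul_ne_zero (by norm_num) m0)]
    refine mul_right_cancel₀ this ?_
    linear_combination (w0 A B : ℂ) * e2 + (Complex.I * Lw a (fun n => sm c d ω n) * w0 A B) * e5 +
      (-2 * Lw a fun n => sm c d ω n) * e4 +
      (2 * Lw a (fun n => sm c d ω n) * w0 A B * (sy I γ).im) * Complex.I_mul_I
  · rw [e3]
    congr 1
    have := m0 (F := K)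
    push_cast
    field_simp
    ring

end Vale.Agent.P014T.Rc
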