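import Vale.Agent.P014T.Rc.St
import Vale.Agent.P014T.Dc.Tq

/-!
# P014T, block REC, row LH: Hecke operators and primitives
-/

set_option autoImplicit false
set_option linter.all false

open scoped Classical
open PowerSeries Polynomial

noncomputable section

namespace Vale.Agent.P014T.Rc

open Vale.Agent.P004Z (PA)
open Dc (TQ hq pz TQ_apply pz_TQ pz_congr pz_apply sum_roots hq_supp)
open Sb Ah

namespace Lh

variable {l : ℕ} {q t : ℂ_[2]} {c e : ℕ → ℂ_[2]} {μ : ℂ_[2] →₀ ℤ}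

theorem two : ‖(2 : ℂ_[2])‖ = 1 / 2 := by
  rw [← map_ofNat (algebraMap ℚ_[2] ℂ_[2]) 2, norm_algebraMap']
  simpa using Padic.norm_p (p := 2)

theorem lm_c (a : ℂ_[2]) (h : ∀ n, e n = a * c n) : Lm t (mk e) = a * Lm t (mk c) := by
  rw [← Lm_C]
  exact congrArg _ (PowerSeries.ext fun n => by rw [PowerSeries.coeff_C_mul, coeff_mk, coeff_mk, h])

/-- bounded sequences -/
def Bd (c : ℕ → ℂ_[2]) : Prop := ∃ b, ∀ n, ‖c n‖ ≤ b

theorem Bd.add (h : Bd c) (k : Bd e) : Bd (c + e) :=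
  let ⟨a, h⟩ := h
  let ⟨b, k⟩ := k
  ⟨a + b, fun n => (norm_add_le _ _).trans (add_le_add (h n) (k n))⟩

theorem Bd.of (h : Bd c) (k : ∀ n, e n = 0 ∨ ∃ u m, ‖u‖ ≤ 1 ∧ e n = u * c m) : Bd e :=
  let ⟨a, h⟩ := h
  ⟨a, fun n => (k n).elim (fun k => by rw [k, norm_zero]; exact (norm_nonneg _).trans (h 0))
    fun ⟨u, m, p, k⟩ => by
      rw [k, norm_mul]; exact (mul_le_of_le_one_left (norm_nonneg _) p).trans (h m)⟩

theorem Bd.sm (h : Bd c) (ht : ‖t‖ < 1) : Summable fun k : ℕ => c k * t ^ k / k := by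
  obtain ⟨b, h⟩ := h
  obtain ⟨a, ha⟩ := NormedField.exists_lt_norm ℂ_[2] b
  have p : 0 < ‖a‖ := ((norm_nonneg _).trans (h 0)).trans_lt ha
  refine ((sm_term two (c := fun k => c k / a) (fun k => by
    rw [norm_div, div_le_one p]; exact (h k).trans ha.le) ht).mul_left a).congr fun k => ?_
  have := norm_pos_iff.1 p
  simp only [div_eq_mul_inv]
  rw [← mul_assoc, ← mul_assoc, mul_left_comm, mul_inv_cancel₀ this, mul_one]

theorem lm_add (ht : ‖t‖ < 1) (h : Bd c) (k : Bd e) :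
    Lm t (mk (c + e)) = Lm t (mk c) + Lm t (mk e) := by
  simp only [Lm, coeff_mk, Pi.add_apply, add_mul, add_div]
  rw [(h.sm ht).tsum_add (k.sm ht)]
  ring

theorem lm_smul (m : ℤ) : Lm t (mk (m • c)) = m • Lm t (mk c) := by
  rw [zsmul_eq_mul (Lm _ _)]
  exact lm_c _ fun n => zsmul_eq_mul _ _

theorem lm_pow (hl : 0 < l) (g : Gd (t ^ l)) {F : ℂ_[2]⟦X⟧} (h : ∀ n, ¬ l ∣ n → coeff n F = 0) :
    Lm t F = Lm (t ^ l) (mk fun n => coeff (l * n) F) / l := by
  have l0 : (l : ℂ_[2]) ≠ 0 := Nat.cast_ne_zero.2 hl.ne'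
  rw [Lm, Lm, (Lg_pow two (g.root hl) l).2, add_div, ← tsum_div_const,
    ← (mul_right_injective₀ hl.ne').tsum_eq (f := fun k => coeff k F * t ^ k / k) fun k hk => by
      by_contra a
      exact hk (by simp only [h k fun e => a ⟨_, e.choose_spec.symm⟩, zero_mul, zero_div])]
  simp only [coeff_mk, mul_zero, pow_mul, Nat.cast_mul, div_div, mul_comm (l : ℂ_[2])]
  rw [mul_div_assoc, mul_div_cancel_right₀ _ l0]

theorem tr_apply {R : Type} [CommRing R] (l : ℕ) (c : ℕ → R) (n : ℕ) :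
    Tr R l c n = c (l * n) + if l ∣ n then l * c (n / l) else 0 := rfl

theorem n_nat (n : ℕ) : ‖(n : ℂ_[2])‖ ≤ 1 := IsUltrametricDist.norm_natCast_le_one _ n

theorem Bd.tr0 (h : Bd c) (l : ℕ) : Bd fun n => c (l * n) :=
  h.of fun n => .inr ⟨1, _, by simp, (one_mul _).symm⟩

theorem Bd.tr1 (h : Bd c) (l : ℕ) : Bd fun n => if l ∣ n then l * c (n / l) else 0 :=
  h.of fun n => by
    split_ifs
    exacts [.inr ⟨l, _, n_nat l, rfl⟩, .inl rfl]

theorem Bd.tr (h : Bd c) (l : ℕ) : Bd (Tr ℂ_[2] l c) := (h.tr0 l).add (h.tr1 l)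

theorem lm_tr (hl : 0 < l) (h0 : q ≠ 0) (h1 : ‖q‖ < 1) (g : Gd q) (h : Bd c) :
    Lm q (mk (Tr ℂ_[2] l c)) = Lm (q ^ l) (mk c) + ∑ r ∈ nthRootsFinset l q, Lm r (mk c) := by
  have l0 : (l : ℂ_[2]) ≠ 0 := Nat.cast_ne_zero.2 hl.ne'
  haveI : NeZero l := ⟨hl.ne'⟩
  obtain ⟨r, rfl⟩ := IsAlgClosed.exists_pow_nat_eq q hl
  obtain ⟨ζ, z⟩ := HasEnoughRootsOfUnity.exists_primitiveRoot ℂ_[2] l
  have r0 : r ≠ 0 := fun e => h0 (by rw [e, zero_pow hl.ne'])
  have r1 : ‖r‖ < 1 := by rwa [norm_pow, pow_lt_one_iff_of_nonneg (norm_nonneg _) hl.ne'] at h1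
  have e1 : Lm (r ^ l) (mk fun n => if l ∣ n then l * c (n / l) else 0) =
      Lm ((r ^ l) ^ l) (mk c) := by
    rw [lm_pow hl (Lg_pow two g l).1 fun n k => by rw [coeff_mk, if_neg k], div_eq_iff l0,
      mul_comm]
    exact lm_c _ fun n => by
      rw [coeff_mk, if_pos (dvd_mul_right _ _), Nat.mul_div_cancel_left _ hl]
  have e2 (j : ℕ) : (ζ ^ j * r) ^ l = r ^ l := by
    rw [mul_pow, pow_right_comm, z.pow_eq_one, one_pow, one_mul]
  have e3 (j : ℕ) : Lg (ζ ^ j * r) = Lg r := mul_left_cancel₀ l0 (by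
    rw [← (Lg_pow two (Gd.root hl (e2 j ▸ g)) l).2, ← (Lg_pow two (g.root hl) l).2, e2])
  have e4 : ∑ j : Fin l, Lm (ζ ^ (j : ℕ) * r) (mk c) =
      Lm r (mk fun n => if l ∣ n then l * c n else 0) := by
    have n1 (j : ℕ) : ‖ζ ^ j * r‖ < 1 := by
      rwa [← pow_lt_one_iff_of_nonneg (norm_nonneg _) hl.ne', ← norm_pow, e2]
    simp only [Lm, coeff_mk, e3, Finset.sum_add_distrib, Finset.sum_const, Finset.card_univ,
      Fintype.card_fin, dvd_zero, if_true, nsmul_eq_mul, mul_assoc]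
    rw [← Summable.tsum_finsetSum fun (j : Fin l) _ => h.sm (n1 j)]
    refine congrArg _ (tsum_congr fun k => ?_)
    simp only [mul_pow, ← Finset.sum_div, ← Finset.mul_sum, ← Finset.sum_mul, pow_right_comm ζ _ k]
    rw [Fin.sum_univ_eq_sum_range (fun j => (ζ ^ k) ^ j)]
    split_ifs with d
    · simp [(z.pow_eq_one_iff_dvd k).2 d, mul_left_comm, mul_assoc]
    · rw [geom_sum_eq (mt (z.pow_eq_one_iff_dvd k).1 d), pow_right_comm, z.pow_eq_one]
      simp
  rw [sum_roots _ hl z r0, e4, ← e1, lm_pow hl g (F := mk fun n => if l ∣ n then l * c n else 0)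
    fun n k => by rw [coeff_mk, if_neg k], add_comm]
  refine (lm_add h1 (h.tr0 l) (h.tr1 l)).trans (congrArg (· + _) ?_)
  rw [eq_div_iff l0, mul_comm]
  exact (lm_c _ fun n => by rw [coeff_mk, if_pos (dvd_mul_right _ _)]).symm

theorem tr_comm {R : Type} [CommRing R] {a b : ℕ} (ha : a.Prime) (hb : b.Prime) :
    Commute (Tr R a) (Tr R b) := by
  rcases eq_or_ne a b with rfl | n
  · exact .refl _
  have k := (Nat.coprime_primes ha hb).2 n
  refine LinearMap.ext fun c => funext fun m => ?_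
  simp only [Module.End.mul_apply, tr_apply, k.dvd_mul_left, k.symm.dvd_mul_left, mul_left_comm a b]
  by_cases p : a ∣ m <;> by_cases p' : b ∣ m
  · obtain ⟨m, rfl⟩ := k.mul_dvd_of_dvd_of_dvd p p'
    have e1 : a * b * m / a = b * m := by rw [mul_assoc, Nat.mul_div_cancel_left _ ha.pos]
    have e2 : a * b * m / b = a * m := by
      rw [mul_comm a, mul_assoc, Nat.mul_div_cancel_left _ hb.pos]
    simp only [p, p', if_true, e1, e2, dvd_mul_right, Nat.mul_div_cancel_left _ ha.pos,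
      Nat.mul_div_cancel_left _ hb.pos, Nat.mul_div_assoc _ p, Nat.mul_div_assoc _ p']
    ring
  · simp [p, p', mt (dvd_trans · (Nat.div_dvd_of_dvd p)) p', Nat.mul_div_assoc _ p]
  · simp [p, p', mt (dvd_trans · (Nat.div_dvd_of_dvd p')) p, Nat.mul_div_assoc _ p']
  · simp [p, p']

variable {S : ℕ}

theorem hr_comm {R : Type} [CommRing R] (P Q : FreeAlgebra ℤ (PA S)) :
    Commute (Hr R P) (Hr R Q) := by
  have c1 (a : PA S) : Commute (Tr R a.1) (Hr R Q) := by
    unfold Hr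
    induction Q using FreeAlgebra.induction with
    | grade0 r => rw [AlgHom.commutes]; exact Algebra.commute_algebraMap_right _ _
    | grade1 l => rw [FreeAlgebra.lift_ι_apply]; exact tr_comm a.2.1 l.2.1
    | mul a b ha hb => rw [map_mul]; exact ha.mul_right hb
    | add a b ha hb => rw [map_add]; exact ha.add_right hb
  unfold Hr at c1 ⊢
  induction P using FreeAlgebra.induction with
  | grade0 r => rw [AlgHom.commutes]; exact Algebra.commute_algebraMap_left _ _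
  | grade1 l => rw [FreeAlgebra.lift_ι_apply]; exact c1 _
  | mul a b ha hb => rw [map_mul]; exact ha.mul_left hb
  | add a b ha hb => rw [map_add]; exact ha.add_left hb

theorem ok (Q : FreeAlgebra ℤ (PA S)) (h : Ok μ) : Ok (Hq Q μ) := fun q k =>
  hq_supp Q (A := fun q => q ≠ 0 ∧ ‖q‖ < 1 ∧ q ∈ AA ∧ Gd q) (fun l q hl _ => by
    rw [norm_pow, pow_lt_one_iff_of_nonneg (norm_nonneg _) hl.ne_zero, pow_ne_zero_iff hl.ne_zero]
    exact and_congr_right fun _ => and_congr_right fun _ => and_congr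
      ⟨AA_rt hl.pos, fun m => pow_mem m l⟩ ⟨Gd.root hl.pos, fun m => (Lg_pow two m l).1⟩) μ
    (fun q e => h q (Finsupp.mem_support_iff.2 e)) q (Finsupp.mem_support_iff.1 k)

theorem tq_map (σ : ℂ_[2] →+* ℂ_[2]) (hl : 0 < l) (h : ∀ q, μ (σ q) = μ q) (q : ℂ_[2]) :
    TQ l μ (σ q) = TQ l μ q := by
  haveI : NeZero l := ⟨hl.ne'⟩
  obtain ⟨r, rfl⟩ := IsAlgClosed.exists_pow_nat_eq q hl
  obtain ⟨ζ, z⟩ := HasEnoughRootsOfUnity.exists_primitiveRoot ℂ_[2] l
  rcases eq_or_ne r 0 with rfl | r0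
  · rw [zero_pow hl.ne', map_zero]
  rw [TQ_apply hl, TQ_apply hl, ← map_pow, h, map_pow σ, sum_roots _ hl z r0,
    sum_roots _ hl (z.map_of_injective σ.injective) ((map_ne_zero σ).2 r0)]
  simp only [← map_pow, ← map_mul, h]

theorem iq (σ : ℂ_[2] →+* ℂ_[2]) (Q : FreeAlgebra ℤ (PA S)) :
    ∀ μ : ℂ_[2] →₀ ℤ, (∀ q, μ (σ q) = μ q) → ∀ q, Hq Q μ (σ q) = Hq Q μ q := by
  unfold Hq
  induction Q using FreeAlgebra.induction with
  | grade0 r => exact fun μ h q => by simp [h]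
  | grade1 l => exact fun μ h => by rw [FreeAlgebra.lift_ι_apply]; exact tq_map σ l.2.1.pos h
  | mul a b ha hb => exact fun μ h => by rw [map_mul]; exact ha _ (hb μ h)
  | add a b ha hb => exact fun μ h q => by simp [ha μ h q, hb μ h q]

theorem bd (Q : FreeAlgebra ℤ (PA S)) : ∀ c, Bd c → Bd (Hr ℂ_[2] Q c) := by
  unfold Hr
  induction Q using FreeAlgebra.induction with
  | grade0 r => exact fun c h => h.of fun n => .inr ⟨r, n, IsUltrametricDist.norm_intCast_le_one _ r,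
      by simp⟩
  | grade1 l => exact fun c h => by rw [FreeAlgebra.lift_ι_apply]; exact h.tr _
  | mul a b ha hb => exact fun c h => by rw [map_mul]; exact ha _ (hb c h)
  | add a b ha hb => exact fun c h => by rw [map_add]; exact (ha c h).add (hb c h)

theorem adj (Q : FreeAlgebra ℤ (PA S)) : ∀ μ c, Ok μ → Bd c →
    pz (fun q => Lm q (mk c)) (Hq Q μ) = pz (fun q => Lm q (mk (Hr ℂ_[2] Q c))) μ := by
  induction Q using FreeAlgebra.induction with
  | grade0 r =>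
    intro μ c _ _
    simp only [Hq, Hr, AlgHom.commutes, Module.algebraMap_end_apply, map_zsmul, pz_apply, lm_smul,
      Finsupp.smul_sum, smul_comm r]
  | grade1 l =>
    intro μ c k b
    rw [Hq, Hr, FreeAlgebra.lift_ι_apply, FreeAlgebra.lift_ι_apply]
    refine (pz_TQ _ _ _).trans (pz_congr _ fun q e => ?_)
    obtain ⟨h0, h1, -, g⟩ := k q (Finsupp.mem_support_iff.2 e)
    exact (lm_tr l.2.1.pos h0 h1 g b).symm
  | mul a b ha hb =>
    intro μ c k p
    rw [show Hr ℂ_[2] (a * b) = Hr ℂ_[2] b * Hr ℂ_[2] a from (map_mul _ a b).trans (hr_comm a b).eq,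
      Module.End.mul_apply, ← hb μ _ k (bd a c p), ← ha _ _ (ok b k) p,
      show Hq (a * b) = Hq a * Hq b from map_mul _ a b, Module.End.mul_apply]
  | add a b ha hb =>
    intro μ c k p
    rw [show Hr ℂ_[2] (a + b) = Hr ℂ_[2] a + Hr ℂ_[2] b from map_add _ a b,
      show Hq (a + b) = Hq a + Hq b from map_add _ a b, LinearMap.add_apply, LinearMap.add_apply,
      map_add, ha μ c k p, hb μ c k p, pz_apply, pz_apply, pz_apply, ← Finsupp.sum_add]
    exact Finset.sum_congr rfl fun q e => by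
      simp only [lm_add (k q e).2.1 (bd a c p) (bd b c p), smul_add]

end Lh

/-- **row LH** -/
theorem lh : LH :=
  ⟨fun _ Q μ k => ⟨Lh.ok Q k, fun _ _ h i g hg => Lh.iq (h.ro g) Q μ (i g hg), fun c b => by
    simpa only [pz_apply, Finsupp.sum, zsmul_eq_mul] using Lh.adj Q μ c k b⟩,
    fun _ _ _ hl _ g _ h => Lh.lm_pow hl g h⟩

end Vale.Agent.P014T.Rc
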