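import Vale.Agent.P014T.Rc.Hk

/-!
# P014T, block REC, row MT: points of the disc and points of the upper half plane
-/

set_option autoImplicit false
set_option linter.all false

open scoped Classical MatrixGroups UpperHalfPlane
open CongruenceSubgroup
open P027M.K (Val)

noncomputable section

namespace Vale.Agent.P014T.Rc

open Vale.Agent.P022 Vale.Agent.P027M.M Vale.Agent.P022.H231.L3 Vale.Agent.P022.H218.L3 Dc
open Vale.Agent.P019P Vale.Agent.P022K.F0.Cf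
open Vale.Agent.P004Z.Ar (mb_SL stab4)

namespace Mt

variable {ι : Qb →+* ℂ_[2]} {M N : ℕ} {t t' : ℂ_[2]} {τ τ' : ℍ} {Γ : Subgroup SL(2, ℤ)}
  {γ : SL(2, ℤ)}

theorem val_pg (X : Mdl) (γ : SL(2, ℤ)) {x : FF} {c : ℂ} :
    P004Z.EF.Val τ (cv (X.pg γ x)) c ↔ P004Z.EF.Val (γ • τ) (cv x) c := by
  rw [← mb_SL, ← Hk.val_pb X (SL_pos γ)]
  rfl

theorem val_od {x : Mer} {c : ℂ} : P004Z.EF.Val τ x c ↔
    x - algebraMap ℂ Mer c = 0 ∨ 0 < od τ (x - algebraMap ℂ Mer c) := by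
  have k : Reg τ (x - algebraMap ℂ Mer c) ↔ Reg τ x :=
    ⟨fun h => sub_add_cancel x _ ▸ (pl τ).add_mem _ _ h (reg_const τ c),
      fun h => (pl τ).sub_mem h (reg_const τ c)⟩
  rw [Pu.val_iff]
  rcases eq_or_ne (x - algebraMap ℂ Mer c) 0 with e | e
  · rw [sub_eq_zero.1 e]
    simp [reg_const, ev_const]
  rw [or_iff_right e]
  refine ⟨fun ⟨a, b⟩ => (ev_eq_zero e (k.2 a)).1 (by
    rw [P004Z.Ar.Fn.ev_sub a (reg_const τ c), ev_const, b, sub_self]), fun h => ?_⟩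
  have a := reg_iff.2 (.inr h.le)
  have := (ev_eq_zero e a).2 h
  rw [P004Z.Ar.Fn.ev_sub (k.1 a) (reg_const τ c), ev_const, sub_eq_zero] at this
  exact ⟨k.1 a, this⟩

theorem ex (hM : 0 < M) (hN : 0 < N) (h : Gamma N ≤ Γ) (hT : ModularGroup.T ^ M ∈ Γ) {a : Qb}
    (h0 : t ≠ 0) (h1 : ‖t‖ < 1) (ha : jv (t ^ M) = ι a) : ∃ τ, Sm ι M Γ t τ := by
  haveI := cff _ (fi_gamma hN h)
  obtain ⟨P, hP, k⟩ := ex_at_j (ι := ι) (e := algebraMap (L Γ) FF) hM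
    (fun z => lf_of_mem hM hT z.2) (fun _ => rfl) h0 h1 (j := jL _) rfl ha
  obtain ⟨τ, p⟩ := Uy.ex_pt (e := (L Γ).val) (j := jL Γ) rfl (mem_iff_val.2 ⟨a, k⟩)
  refine ⟨τ, h0, h1, ⟨a, ha⟩, fun f hf b => (hP ⟨f, hf⟩ b).symm.trans ?_⟩
  rw [val_od, Val, mem_Mge, ← cv_alg, ← map_sub, map_eq_zero]
  exact or_congr (by rw [← Subtype.val_inj]; rfl) p.pos

theorem vj (hM : 0 < M) (h : Sm ι M Γ t τ) :
    ∃ a, jv (t ^ M) = ι a ∧ P004Z.EF.Val τ (cv jF) (io a) :=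
  h.alg.imp fun a e => ⟨e, (h.val _ (jF_mem _) a).1 (e ▸ vf_j hM h.ne h.lt)⟩

theorem smu (h : Sm ι M Γ t τ) (k : γ ∈ Γ) : Sm ι M Γ t (γ • τ) := by
  obtain ⟨X⟩ := mdl
  exact ⟨h.ne, h.lt, h.alg, fun f hf a => by
    rw [← val_pg X, (Hec.mem_L_iff X).1 hf γ k, h.val f hf]⟩

variable [CFF Qb (L (Gamma N))] {Q Q' : Plk Qb (L (Gamma N))}

theorem mem (h : Ac τ Q) (z : L (Gamma N)) : z ∈ Q.1 ↔ ∃ a, P004Z.EF.Val τ (cv z) (io a) :=
  mem_iff_val.trans (exists_congr (h.val z))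

theorem conj (X : Mdl) (h : Ac τ Q) (k : Ac (γ • τ) Q') (σ : L (Gamma N) ≃+* L (Gamma N))
    (e : ∀ z, ((σ z : L (Gamma N)) : FF) = X.pg γ z) (z : L (Gamma N)) : σ z ∈ Q.1 ↔ z ∈ Q'.1 := by
  simp only [mem h, mem k, e, val_pg]

end Mt

open Mt in
/-- **row MT** -/
theorem mt (pt : PT) : MT := by
  intro ι M l Γ hM hl h hT
  refine ⟨fun t a => ex hM hl h hT, fun t τ s => ?_⟩
  obtain ⟨X⟩ := mdl
  have hN : Lv (l * 4) := ⟨by omega, dvd_mul_left _ _⟩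
  have h' : Gamma (l * 4) ≤ Γ := gamma_le.trans h
  haveI := cff (Gamma (l * 4)) (fi_gamma hN.pos le_rfl)
  obtain ⟨-, p2, p3⟩ := pt _ hN
  obtain ⟨a, ha, va⟩ := vj hM s
  obtain ⟨Q, hQ⟩ := p2 τ a va
  have q0 := pow_ne_zero M s.ne
  have q1 : ‖t ^ M‖ < 1 := by rw [norm_pow]; exact pow_lt_one₀ (norm_nonneg _) s.lt hM.ne'
  refine ⟨fun γ e => ?_, fun τ' => ⟨fun s' => ?_, fun ⟨γ, k, e⟩ => e ▸ smu s k⟩, fun t' s' => ?_⟩
  · obtain ⟨r, hr⟩ := IsAlgClosed.exists_pow_nat_eq (t ^ M) hN.pos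
    have r0 : r ≠ 0 := fun c => q0 (by rw [← hr, c, zero_pow hN.pos.ne'])
    have r1 : ‖r‖ < 1 := by
      rwa [← hr, norm_pow, pow_lt_one_iff_of_nonneg (norm_nonneg _) hN.pos.ne'] at q1
    obtain ⟨δ, k⟩ := all_fib X hN.pos le_rfl r0 r1 (hr ▸ ha) ((hQ.val (jL _) a).2 va)
    obtain ⟨σ, hσ⟩ := ((artin X ⊤ (Gamma (l * 4)) le_top (fi_gamma hN.pos le_rfl)).2
      fun a _ => gamma_conj _ a).2.2 γ trivial
    have := (fib_iff X hN le_rfl r0 r1 (at_conj X hN.pos (σ : L (Gamma (l * 4)) ≃+* L (Gamma (l * 4)))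
      hσ (conj X hQ (e.symm ▸ hQ) _ hσ) k)).1 k
    rw [mul_inv_cancel_right] at this
    refine stab4 hN.four (this.elim (Hk.g0 _ ·) fun c => ?_) e
    simpa [Gamma0_mem] using Hk.g0 _ c
  · obtain ⟨a', -, va'⟩ := vj hM s'
    obtain ⟨Q', hQ'⟩ := p2 τ' a' va'
    haveI := cff Γ (fi_gamma hl h)
    obtain ⟨δ, k, σ, k1, k2⟩ := ex_conj X hN.pos h' (P := Q) (Q := Q') fun z =>
      (mem hQ _).trans ((exists_congr fun b => (s.val _ z.2 b).symm.trans (s'.val _ z.2 b)).trans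
        (mem hQ' (IntermediateField.inclusion (L_mono h') z)).symm)
    obtain ⟨R, hR⟩ := p2 (δ • τ) a (by rwa [← val_pg X, pg_jF])
    obtain rfl : R = Q' := Subtype.ext (SetLike.ext fun z =>
      (conj X hQ hR σ k1 z).symm.trans (k2 z))
    obtain ⟨γ, m, e⟩ := p3 _ _ _ hR hQ'
    exact ⟨γ * δ, mul_mem (h' m) k, by rw [mul_smul, e]⟩
  · refine jv_inj (pow_ne_zero M s'.ne) (by
      rw [norm_pow]; exact pow_lt_one₀ (norm_nonneg _) s'.lt hM.ne') q0 q1 ?_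
    rw [ha]
    exact (vf_j hM s'.ne s'.lt).uniq hM ((s'.val _ (jF_mem _) a).2 va)

end Vale.Agent.P014T.Rc
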