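import Vale.Agent.P014T.Rc.St
import Vale.Agent.P014T.Dc.Par
import Vale.Agent.P014T.Pu.Hk

/-! # P014T, block REC: small points of the disc -/

set_option linter.all false

open scoped Classical MatrixGroups UpperHalfPlane
open CongruenceSubgroup NumberField PowerSeries

noncomputable section

namespace Vale.Agent.P014T.Rc

namespace Par

open Vale.Agent.P022 (Qb GQ)
open Vale.Agent.P022D.W (dec)
open Vale.Agent.P004S.Ga (K)
open Vale.Agent.P004M.TE (Cv Pt pa ga pa_some ga_some crv_map)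
open P004N (RN)
open Vale.Agent.P027M.M (Mdl FF L cv mdl)
open Ah (Ind am AA)
open Dc (Vf jL jv)
open Pu (ParY)
open Sb (Gd Lm)
open Wm (Fx)

theorem nrm_Lm {t : ℂ_[2]} (t0 : t ≠ 0) (ht : ‖t‖ ≤ 1 / 4) {c : ℕ → ℂ_[2]} (c0 : c 0 = 0)
    (c1 : c 1 = 1) (hc : ∀ k, ‖c k‖ ≤ 1) : ‖Lm t (mk c)‖ = ‖t‖ := by
  have p := norm_pos_iff.2 t0
  simp only [Lm, coeff_mk]
  rw [← (Sb.sm_term Ah.two_C hc (x := t) (by linarith)).sum_add_tsum_nat_add 2]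
  simp only [Finset.sum_range_succ, Finset.sum_range_zero, c0, c1, zero_mul, zero_div, zero_add,
    one_mul, pow_one, Nat.cast_one, div_one]
  rw [add_comm, Dc.norm_add_of_lt]
  refine lt_of_le_of_lt (IsUltrametricDist.norm_tsum_le_of_forall_le fun k => ?_) (half_lt_self p)
  refine (Sb.n_term Ah.two_C (hc _) _).trans ?_
  have : ((k + 2 : ℕ) : ℝ) ≤ 2 * 4 ^ k := by
    exact_mod_cast (by have := @Nat.lt_pow_self k 4 (by norm_num); omega : k + 2 ≤ 2 * 4 ^ k)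
  refine (mul_le_mul this (show ‖t‖ ^ (k + 2) ≤ (1 / 4) ^ (k + 1) * ‖t‖ by
    rw [pow_succ]; gcongr) (by positivity) (by positivity)).trans_eq ?_
  rw [pow_succ, ← mul_assoc, ← mul_assoc, mul_assoc 2, ← mul_pow]
  ring

theorem ex_q {k : ℕ} (hk : 0 < k) : ∃ q : K, am q ≠ 0 ∧ ‖am q‖ = (1 / 2) ^ k ∧ Gd (am q) ∧
    jv (am q) = (2 ^ k)⁻¹ := by
  have n : ‖((2 : K) ^ k)⁻¹‖ = 2 ^ k := by rw [norm_inv, norm_pow, Ah.two_K]; simp
  obtain ⟨q, h0, h1, h2⟩ := Dc.ex_jv (a := ((2 : K) ^ k)⁻¹) (n ▸ one_lt_pow₀ one_lt_two hk.ne')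
  have e : jv (am q) = (2 ^ k)⁻¹ := by
    rw [Dc.jv_map am Ah.nrm_am h1, h2, map_inv₀, map_pow, map_ofNat]
  have q0 := (map_ne_zero am).2 h0
  have q1 : ‖am q‖ < 1 := by rwa [Ah.nrm_am]
  refine ⟨q, q0, inv_injective ?_, ⟨(1, k), one_pos, ?_⟩, e⟩
  · rw [Ah.nrm_am, ← Dc.norm_jv h1, h2, n]
    simp
  · rw [norm_sub_rev, pow_one, zpow_natCast, div_eq_mul_inv, ← e]
    exact (Dc.jv_near q0 q1).trans_lt q1

variable {N : ℕ} {ι : Qb →+* ℂ_[2]} {P : Ideal (𝓞 Qb)} {q c : ℂ_[2]} {x : FF}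

theorem alg (hN : 0 < N) (h0 : q ≠ 0) (h1 : ‖q‖ < 1) {b : Qb} (hb : jv q = ι b)
    (hx : x ∈ L (Gamma0 N)) (h : Vf ι 1 q x c) : ∃ a, ι a = c := by
  have := Dc.cff (Gamma0 N) (Dc.fi_gamma hN (Pu.g_le N))
  obtain ⟨Q, hQ, -⟩ := Dc.ex_at_j (ι := ι) (e := algebraMap (L (Gamma0 N)) FF) one_pos
    (fun z => Dc.lf_of_mem one_pos (Gamma0_mem.2 (by rw [pow_one]; simp [ModularGroup.T])) z.2) (fun _ => rfl)
    h0 h1 (j := jL _) rfl (by rwa [pow_one])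
  exact (hQ.alg one_pos (z := (⟨x, hx⟩ : L _)) (c := c) h).imp fun _ e => e.1

theorem fix (h : Ind ι P) {g : GQ} (hg : g ∈ dec P) (hq : h.ro g q = q) (hx : Pu.Rq (cv x))
    {a : Qb} (v : Vf ι 1 q x (ι a)) : g a = a := by
  obtain ⟨X⟩ := mdl
  have := v.gal X one_pos (h.ro g) (h.ro_nrm g) (h.ro_emb hg)
  rw [hq, hx.gal X g, h.ro_emb hg] at this
  exact ι.injective (this.uniq one_pos v)

theorem pt {G I : ℍ → ℂ} {a : ℕ → ℤ} {A B : ℤ} {w : ℕ} {y : FF} (h : Ind ι P)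
    {lg : Fx A B (dec P) →+ K} (r : RN N G a) (p : ParY N a A B w I (cv x) (cv y))
    (hl : Lc.Lk ι lg) : ∃ ρ : ℝ, 0 < ρ ∧ ∀ q : ℂ_[2], q ≠ 0 → ‖q‖ < 1 → ‖q‖ ≤ ρ →
      (∃ b, jv q = ι b) → (∀ g ∈ dec P, h.ro g q = q) → ∃ R : Fx A B (dec P),
        (∃ c d n, R.1 = .some c d n ∧ Vf ι 1 q x (ι c) ∧ Vf ι 1 q y (ι d)) ∧
        w * am (lg R) = Lm q (mk fun n => (a n : ℂ_[2])) := by
  obtain ⟨l, k⟩ := Lc.ex_lgs A B
  obtain ⟨s, t, h1, h2, h3⟩ := Dc.pw_ex r p.toPw rfl rfl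
  have e : ∀ z : ℤ, algebraMap ℚ ℂ_[2] z = z := fun z => map_intCast _ z
  obtain ⟨ρ, k1, -, k3⟩ := Dc.par0 Nat.prime_two (by exact_mod_cast Ah.two_lt) ι
    ((map_intCast ι A).trans (e A).symm) ((map_intCast ι B).trans (e B).symm)
    (e A ▸ IsUltrametricDist.norm_intCast_le_one _ A)
    (e B ▸ IsUltrametricDist.norm_intCast_le_one _ B) (by rw [e, e]; exact_mod_cast p.disc) k
    one_pos h1 h2 h3
  rw [Dc.map_gw, Dc.itg_gw] at k3
  refine ⟨ρ, k1, fun q q0 q1 q2 ⟨b, hb⟩ fx => ?_⟩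
  obtain ⟨c, d, n, v1, v2, -, -, v⟩ := k3 q q0 q2
  obtain ⟨c, rfl⟩ := alg r.pos q0 q1 hb (Pu.mem_L p.xm) v1
  obtain ⟨d, rfl⟩ := alg r.pos q0 q1 hb (Pu.mem_L p.ym) v2
  have m : (Cv Qb (A : ℚ) (B : ℚ)).Nonsingular c d :=
    (WeierstrassCurve.Affine.map_nonsingular _ ι.injective c d).1 
      (crv_map ι (ι.toRatAlgHom.commutes (A : ℚ)) (ι.toRatAlgHom.commutes (B : ℚ)) ▸ n :)
  refine ⟨⟨.some c d m, fun g hg => ?_⟩, ⟨c, d, m, rfl, v1, v2⟩, ?_⟩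
  · rw [ga_some]
    exact (WeierstrassCurve.Affine.Point.some.injEq ..).mpr
      ⟨fix h hg (fx g hg) p.xq v1, fix h hg (fx g hg) p.yq v2⟩
  · rw [hl l k, pa_some]
    refine (congrArg _ v).trans ?_
    rw [Lm, coeff_mk, r.zero, Int.cast_zero, zero_mul, zero_add, P022K.FI.ev, ← tsum_mul_left]
    refine tsum_congr fun n => ?_
    rw [Dc.lw, coeff_mk, coeff_mk, smul_eq_mul, ← div_div, ← mul_assoc,
      mul_div_cancel₀ _ (Nat.cast_ne_zero.2 p.wpos.ne'), div_mul_eq_mul_div]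

end Par

open Ah (am)

/-- **small points of the disc** -/
theorem par : PAR := fun N G a A B w I x y ι P h lg r p hl => by
  obtain ⟨ρ, r0, hρ⟩ := Par.pt h r p hl
  obtain ⟨k, hk⟩ := exists_pow_lt_of_lt_one (lt_min r0 (show (0 : ℝ) < 1 / 4 by norm_num))
    (show (1 / 2 : ℝ) < 1 by norm_num)
  choose q q0 q1 q2 q3 using fun i : Fin 2 => Par.ex_q (k := k + 1 + i) (by omega)
  have n : ∀ i, ‖am (q i)‖ ≤ min ρ (1 / 4) := fun i => (q1 i).trans_le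
    ((pow_le_pow_of_le_one (by norm_num) (by norm_num) (by omega)).trans hk.le)
  have n1 : ∀ i, ‖am (q i)‖ < 1 := fun i => (n i).trans_lt (min_lt_of_right_lt (by norm_num))
  have j : ∀ i, ∃ b, Dc.jv (am (q i)) = ι b := fun i =>
    ⟨(2 ^ _)⁻¹, by rw [q3, map_inv₀, map_pow, map_ofNat]⟩
  choose R R1 R2 using fun i => hρ _ (q0 i) (n1 i) ((n i).trans (min_le_left _ _)) (j i)
    fun g _ => h.ro_am g _
  refine ⟨fun i => am (q i), R, fun e => ?_, fun i =>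
    ⟨q0 i, n1 i, Ah.am_AA _, q2 i, j i, fun g _ => h.ro_am g _, R1 i, R2 i⟩⟩
  have m := fun i => Par.nrm_Lm (q0 i) ((n i).trans (min_le_right _ _))
    (c := fun n => (a n : ℂ_[2])) (by simp [r.zero]) (by simp [r.one])
    fun _ => IsUltrametricDist.norm_intCast_le_one _ _
  have := (m 0).symm.trans (((congrArg norm ((R2 0).symm.trans (e ▸ R2 1)))).trans (m 1))
  rw [q1, q1] at this
  exact absurd (pow_right_injective₀ (by norm_num) (by norm_num) this) (by simp)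

end Vale.Agent.P014T.Rc
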