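import Vale.Agent.P014T.Rc.St
import Vale.Agent.P014T.Uy.Pt
import Vale.Agent.P004Z.Ar.Plc

/-! # P014T, block REC: places and points of the upper half plane -/

set_option linter.all false

open UpperHalfPlane CongruenceSubgroup
open scoped MatrixGroups IntermediateField

noncomputable section

namespace Vale.Agent.P014T.Rc

open Vale.Agent.P022 H218.L3 H231.L3 P027M.M P019P P025H492 Dc Uy
open P022K.F0.Cf (od Reg reg_iff reg_const ev_const ev_eq_zero pl ev_jm reg_jm)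
open P004Z.Ar.Fn (ev_sub ex_mv od_act)
open P027M.K (Val)

namespace Pl

theorem val_od {τ : ℍ} {x : Mer} {c : ℂ} : P004Z.EF.Val τ x c ↔
    x - algebraMap ℂ Mer c = 0 ∨ 0 < od τ (x - algebraMap ℂ Mer c) := by
  rw [Pu.val_iff]
  by_cases n : x - algebraMap ℂ Mer c = 0
  · simp only [sub_eq_zero.1 n, reg_const, ev_const, sub_self, true_or, and_self]
  refine ⟨fun h => .inr ((ev_eq_zero n ((pl τ).sub_mem h.1 (reg_const τ c))).1 (by
    rw [ev_sub h.1 (reg_const τ c), ev_const, h.2, sub_self])), fun h => ?_⟩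
  have h := h.resolve_left n
  have r := reg_iff.2 (.inr h.le)
  have r' : Reg τ x := by simpa using r.add (reg_const τ c)
  exact ⟨r', by rw [← sub_eq_zero, ← ev_const τ c, ← ev_sub r' (reg_const τ c), (ev_eq_zero n r).2 h]⟩

variable {Γ : Subgroup SL(2, ℤ)} [CFF Qb (L Γ)] {τ τ' : ℍ} {Q : Plk Qb (L Γ)}

theorem ac_of (h : Γ ≤ G0) (p : Uy.Pt (L Γ).val τ Q) : Ac τ Q := by
  obtain ⟨X⟩ := mdl
  have o := p.ord (p.one (t := X.tL h) (lp_t X) fun a e => X.t_ne a (congrArg Subtype.val e))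
  refine ⟨o, fun z a => ?_⟩
  have e : cv ((z - algebraMap Qb (L Γ) a : L Γ) : FF) = cv z - algebraMap ℂ Mer (io a) := by
    rw [← cv_alg, ← map_sub]; rfl
  rw [val_od, ← e, Val, mem_Mge, o, map_eq_zero, ZeroMemClass.coe_eq_zero]
  rfl

theorem mem (h : Ac τ Q) (z : L Γ) : z ∈ Q.1 ↔ Reg τ (cv z) := by
  rw [mem_iff_ord, reg_iff, h.ord, map_eq_zero, ZeroMemClass.coe_eq_zero]

theorem gam_g0 {l : ℕ} (h : Lv l) : Gamma l ≤ G0 :=
  (grp l h).2.2.2.2.2.1.trans (grp l h).2.2.1.hi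

theorem same {l : ℕ} [CFF Qb (L (Gamma l))] {Q : Plk Qb (L (Gamma l))} (hl : Lv l) (h : Ac τ Q)
    (h' : Ac τ' Q) : ∃ γ ∈ Gamma l, γ • τ = τ' := by
  obtain ⟨X⟩ := mdl
  have g := gam_g0 hl
  obtain ⟨P, hP, e, d, -⟩ := X.hol
  obtain ⟨a, k⟩ := exists_cst Q ((mem h (X.tL g)).2 ((lp_t X).1 τ))
  have v : Val Q (X.tL g) a := k.imp sub_eq_zero.2 id
  have w : ∀ τ, Ac τ Q → P τ = io a := fun τ h =>
    (ev_jm τ ⟨P, hP⟩).symm.trans (e ▸ (Pu.val_iff.1 ((h.val _ a).1 v)).2 :)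
  obtain ⟨γ, rfl, m⟩ := ex_mv (P := ⟨P, hP⟩) (d τ') ((X.baseC.trans (by rw [e]; rfl)).le
    (MF_mono le_top jM_mem)) ((w τ h).trans (w τ' h').symm)
  have m := t_fix X (γ := γ) (cv_inj (by rw [Hec.cv_pg, e]; exact m))
  have := cff G0 inferInstance
  let _ := algL g
  have := towerL g
  obtain ⟨f1, f2⟩ := artin X G0 _ g (fi_gamma hl.pos le_rfl)
  obtain ⟨f3, -, f4⟩ := f2 fun a _ => gamma_conj l a
  obtain ⟨σ, hσ⟩ := f4 γ m
  have e3 : σ⁻¹ ∈ inertia (L G0) Q := Subtype.ext (SetLike.ext fun z => by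
    show σ z ∈ Q.1 ↔ z ∈ Q.1
    rw [mem h, mem h', hσ, Hec.cv_pg, P004Z.Ar.Fn.reg_act])
  rw [(ram_eq_one_iff Q).1 (unr X (SL_pos 1) (e := (L _).val) (j := jL _) rfl ((mem h _).2 (hl_j τ))
    (t := X.tL le_rfl) (Hec.pg_one X _).symm), Subgroup.mem_bot, inv_eq_one] at e3
  subst e3
  exact (mem_Gt.1 (fix_Gt X hl fun x hx => (hσ ⟨x, hx⟩).symm)).elim (fun k => ⟨γ, k, rfl⟩)
    fun k => ⟨-γ, k, ModularGroup.SL_neg_smul γ τ⟩

end Pl

open Pl in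
theorem pt : PT := fun l _ hl =>
  ⟨fun Q h => (ex_pt (e := (L _).val) rfl h).imp fun _ => ac_of (gam_g0 hl), fun τ a h =>
    (ex_pl (e := (L _).val) (j := jL _) rfl ((P004Z.Ar.Fn.ev_j τ).symm.trans (Pu.val_iff.1 h).2)).imp
      fun _ k => ac_of (gam_g0 hl) k.1, fun _ _ _ => same hl⟩

end Vale.Agent.P014T.Rc
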