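import Vale.Agent.P014T.Ah.Fc
import Vale.Agent.P014T.Dc.Fb
import Vale.Agent.P014T.Sg.Ff
import Vale.Agent.P014T.Pu.Ey
import Vale.Agent.P014T.Rk.Defs
import Vale.Agent.P014T.Sb.Lm
import Vale.Agent.P014T.Cp.Defs
import Vale.Agent.P014T.Kc.Tr
import Vale.Agent.P014T.Dr.St
import Vale.Agent.P014T.Ts.Act
import Vale.Agent.P014T.Lc.Fx

/-!
# P014T, block REC (explicit reciprocity): words and rows
-/

set_option autoImplicit false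
set_option linter.all false

open scoped Classical MatrixGroups Real ComplexConjugate UpperHalfPlane
open CongruenceSubgroup NumberField PowerSeries

noncomputable section

namespace Vale.Agent.P014T.Rc

open Vale.Agent.P022 (Qb GQ)
open Vale.Agent.P022D.W (dec)
open Vale.Agent.P004S.Ga (K O)
open Vale.Agent.P004S.Aq (cy)
open Vale.Agent.P004F.Rc (mq hn)
open Vale.Agent.P004M.TE (Cv Pt pa ga)
open P004N (RN Mk QE)
open Vale.Agent.P004Z (PA Tdiv TcL pet2)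
open Vale.Agent.P004Z.Ar (cs)
open Vale.Agent.P027M.M (Mdl FF L cv io Lv Cyc)
open Vale.Agent.P022K.QT.Cu (E)
open P027M.K (Val SL)
open Vale.Agent.P019P (Plk ord CFF)
open Vale.Agent.P022K.F0.Cf (od)
open Ah (Ind am AA)
open Dc (Vf At eg jL jv)
open Sg (sF)
open Pu (ParY)
open Es (LL sy)
open Rk (E1 Ph Lw)
open Sb (Gd Lm)
open Cp (Zn cp)
open Wm (Fx)

/-! ## words -/

/-- `Kz X A B x y L n u v z`: `z` is a cocycle on `Dr.Hm L` of the class of the symbol `{u, v}`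
modulo `2 ^ n`, pushed from `X(L)` to the curve along `(x, y)` -/
abbrev KZ : Type := Mdl → (A B : ℤ) → FF → FF → ℕ → ℕ → FF → FF → (GQ → Pt A B) → Prop

variable {A B : ℤ}

/-- the multiplicity of `P` in the pull back of the point `R` (for `2 R ≠ 0`) -/
def pb {F : Type} [Field F] [Algebra Qb F] [CFF Qb F] (x y : F) (R : Pt A B) (P : Plk Qb F) : ℤ :=
  match R with
  | .zero => 0
  | .some c d _ => if Val P x c ∧ Val P y d then ord P (x - algebraMap Qb F c) else 0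

/-- the same on the upper half plane -/
def pc (x y : FF) (R : Pt A B) (τ : ℍ) : ℤ :=
  match R with
  | .zero => 0
  | .some c d _ => if P004Z.EF.Val τ (cv x) (io c) ∧ P004Z.EF.Val τ (cv y) (io d) then
      od τ (cv (x - algebraMap Qb FF c)) else 0

/-- `τ` goes to the point `R` -/
def Pv (x y : FF) (τ : ℍ) (R : Pt A B) : Prop :=
  ∃ c d n, R = .some c d n ∧ P004Z.EF.Val τ (cv x) (io c) ∧ P004Z.EF.Val τ (cv y) (io d)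

/-- the action on coefficients, on a level field -/
def Ga (X : Mdl) {Γ : Subgroup SL(2, ℤ)} (σ : GQ →* SL Qb (L Γ)) : Prop :=
  ∀ g (z : L Γ), (((σ g).1 z : L Γ) : FF) = X.gal g z

/-- the covolume (the text of `P014T.Z.Cov`) -/
def Vol (Λ : Submodule ℤ ℂ) (c : ℝ) : Prop := ∃ u v : ℂ,
  (∀ z, z ∈ Λ ↔ ∃ m n : ℤ, z = m * u + n * v) ∧ c = |(conj u * v).im|

/-- the orbit of a point -/
def orb (N : ℕ) (τ0 τ : ℍ) : ℤ := if ∃ γ ∈ Gamma0 N, γ • τ0 = τ then 1 else 0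

/-- no stabiliser -/
def Fr (τ : ℍ) : Prop := ∀ γ : SL(2, ℤ), γ • τ = τ → γ = 1 ∨ γ = -1

/-- the eigenvalue of a Hecke polynomial -/
def ev {S : ℕ} (a : ℕ → ℤ) (P : FreeAlgebra ℤ (PA S)) : ℤ :=
  FreeAlgebra.lift ℤ (fun l : PA S => a l.1) P

/-- `P` projects all forms on the line of `a` -/
def Pj (N : ℕ) {S : ℕ} (a : ℕ → ℤ) (P : FreeAlgebra ℤ (PA S)) : Prop :=
  ∀ F c, Mk N 2 F → QE F c →
    ∃ κ : ℂ, FreeAlgebra.lift ℤ (fun l : PA S => TcL l.1) P c = fun n => κ * a n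

/-- the point `t = e(τ / M)` of the Tate disc and the point `τ` give the same place of `L Γ` -/
structure Sm (ι : Qb →+* ℂ_[2]) (M : ℕ) (Γ : Subgroup SL(2, ℤ)) (t : ℂ_[2]) (τ : ℍ) : Prop where
  ne : t ≠ 0
  lt : ‖t‖ < 1
  alg : ∃ a, jv (t ^ M) = ι a
  val : ∀ f ∈ L Γ, ∀ a, Vf ι M t f (ι a) ↔ P004Z.EF.Val τ (cv f) (io a)

/-- the divisor `μ` on the disc represents the multiplicity function `n` -/
structure Rp (ι : Qb →+* ℂ_[2]) (N : ℕ) (μ : ℂ_[2] →₀ ℤ) (n : ℍ → ℤ) : Prop where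
  ex : ∀ q ∈ μ.support, ∃ τ, Sm ι 1 (Gamma0 N) q τ
  eq : ∀ q τ, Sm ι 1 (Gamma0 N) q τ → n τ = μ q
  sup : ∀ τ, n τ ≠ 0 → ∃ q, Sm ι 1 (Gamma0 N) q τ

/-- a good divisor on the disc -/
def Ok (μ : ℂ_[2] →₀ ℤ) : Prop := ∀ q ∈ μ.support, q ≠ 0 ∧ ‖q‖ < 1 ∧ q ∈ AA ∧ Gd q

/-- invariant under the decomposition group -/
def Iq {ι : Qb →+* ℂ_[2]} {P : Ideal (𝓞 Qb)} (h : Ind ι P) (μ : ℂ_[2] →₀ ℤ) : Prop :=
  ∀ g ∈ dec P, ∀ q, μ (h.ro g q) = μ q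

/-- the Hecke operator on divisors of the disc -/
def Tq (l : ℕ) : Module.End ℤ (ℂ_[2] →₀ ℤ) := Finsupp.linearCombination ℤ fun q =>
  Finsupp.single (q ^ l) 1 + ∑ u ∈ (Polynomial.nthRoots l q).toFinset, Finsupp.single u 1

/-- the Hecke operator on coefficients -/
def Tr (R : Type) [CommRing R] (l : ℕ) : Module.End ℤ (ℕ → R) :=
  (AddMonoidHom.mk' (fun (c : ℕ → R) n => c (l * n) + if l ∣ n then l * c (n / l) else 0)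
    fun c e => funext fun n => by
      simp only [Pi.add_apply]
      split_ifs <;> ring).toIntLinearMap

/-- Hecke polynomials on divisors of the disc -/
def Hq {S : ℕ} (P : FreeAlgebra ℤ (PA S)) : Module.End ℤ (ℂ_[2] →₀ ℤ) :=
  FreeAlgebra.lift ℤ (fun l : PA S => Tq l.1) P

/-- Hecke polynomials on coefficients -/
def Hr (R : Type) [CommRing R] {S : ℕ} (P : FreeAlgebra ℤ (PA S)) : Module.End ℤ (ℕ → R) :=
  FreeAlgebra.lift ℤ (fun l : PA S => Tr R l.1) P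

/-- Hecke polynomials on multiplicity functions -/
def Hd {S : ℕ} (P : FreeAlgebra ℤ (PA S)) : Module.End ℂ (ℍ → ℂ) :=
  FreeAlgebra.lift ℤ (fun l : PA S => Tdiv l.1) P

/-- the place `P` is evaluation at `τ` -/
structure Ac {Γ : Subgroup SL(2, ℤ)} [CFF Qb (L Γ)] (τ : ℍ) (P : Plk Qb (L Γ)) : Prop where
  ord : ∀ z : L Γ, ord P z = od τ (cv z)
  val : ∀ (z : L Γ) a, Val P z a ↔ P004Z.EF.Val τ (cv z) (io a)

/-- `Av` is the pull back of `μ` to `X(l)` -/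
structure Ab (X : Mdl) (ι : Qb →+* ℂ_[2]) (N l : ℕ) [CFF Qb (L (Gamma l))] (μ : ℂ_[2] →₀ ℤ)
    (Av : Plk Qb (L (Gamma l)) →₀ ℤ) : Prop where
  sup : ∀ y ∈ Av.support, ∃ q ∈ μ.support, ∀ t, t ^ l = q →
    ∃ γ ∈ Gamma0 N, At ι l t (eg X γ _) y
  eq : ∀ y t, ∀ γ ∈ Gamma0 N, t ^ l ∈ μ.support → At ι l t (eg X γ _) y → Av y = μ (t ^ l)

section

variable {R : Type} [CommRing R] [Algebra ℚ R]

/-- the logarithmic derivative of the Siegel unit (the text of `Sb.EE`) -/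
def Es (c l : ℕ) (ζ : R) (v : ZMod l × ZMod l) : R⟦X⟧ :=
  (c ^ 2 : ℕ) * E1 l ζ v - c * E1 l ζ (c * v.1, c * v.2)

/-- the weighted sum of the products -/
def FS (c d l : ℕ) [NeZero l] (ζ : R) (Φ : (ZMod l × ZMod l) × (ZMod l × ZMod l) → R) : R⟦X⟧ :=
  ∑ Y, Φ Y • (Es c l ζ Y.1 * Es d l ζ Y.2)

end

/-- a row modulo `l` as a torsion point -/
def rw (l : ℕ) (v : ZMod l × ZMod l) : Fin 2 → ℚ := ![(v.1.val : ℚ) / l, (v.2.val : ℚ) / l]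

/-- the row `i` of `γ⁻¹` as a torsion point -/
def rg (l : ℕ) (γ : SL(2, ℤ)) (i : Fin 2) : Fin 2 → ℚ := fun j => (γ⁻¹ i j : ℚ) / l

/-- the smoothed weight -/
def sm (c d : ℕ) {l : ℕ} (w : ZMod l → ℤ) (x : ZMod l) : ℤ :=
  c ^ 2 * d ^ 2 * w x - c * d ^ 2 * w ((c : ZMod l)⁻¹ * x) - c ^ 2 * d * w ((d : ZMod l)⁻¹ * x) +
    c * d * w ((c * d : ZMod l)⁻¹ * x)

/-- the smoothing numbers and the symbol -/
structure Ad (N l c d : ℕ) (γ : SL(2, ℤ)) : Prop where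
  c24 : c ^ 2 % 24 = 1
  d24 : d ^ 2 % 24 = 1
  cl : c.Coprime l
  dl : d.Coprime l
  cN : c ≡ 1 [MOD N]
  dN : d ≡ 1 [MOD N]
  g0 : ¬ (N : ℤ) ∣ γ 1 0
  g1 : ¬ (N : ℤ) ∣ γ 1 1

/-- a transversal of `Hm l` with its cyclotomic exponents and an invariant weight on the units -/
structure Wt (l : ℕ) (D : Subgroup GQ) {J : Type} (s : J → GQ) (p : GQ → J → J) (κ : J → ℤ)
    (w : ZMod l → ℤ) : Prop where
  ne : Nonempty J
  tr : Kc.Tr ⊤ (Dr.Hm l) s p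
  cyc : ∀ i, Cyc l (s i) (κ i)
  un : ∀ x, w x ≠ 0 → IsUnit x
  inv : ∀ g ∈ D, ∀ i, w (κ (p g i)) = w (κ i)

/-- the weighted corestriction -/
def zw {J : Type} [Fintype J] (s : J → GQ) (p : GQ → J → J) (W : J → ℤ) (z : GQ → Pt A B)
    (g : GQ) : Pt A B := ∑ i, W i • ga (s (p g i)) (z (Kc.ta s p g i))

/-- the symbol over the support of `Av` -/
def sy2 {ι : Qb →+* ℂ_[2]} {P : Ideal (𝓞 Qb)} (h : Ind ι P) {l : ℕ} [CFF Qb (L (Gamma l))]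
    (σ : GQ →* SL Qb (L (Gamma l))) {J : Type} [Fintype J] (s : J → GQ) (p : GQ → J → J)
    (W : J → ℤ) (Av : Plk Qb (L (Gamma l)) →₀ ℤ) (n : ℕ) (e : ℤ) (u v : L (Gamma l)) : K ⧸ O :=
  h.fd.sym (fun g (y : Plk Qb (L (Gamma l)) × J) => (σ g • y.1, p g y.2))
    (Av.support ×ˢ Finset.univ) n (fun y => (e * Av y.1 * W y.2 : ℤ) * (cy (s y.2))⁻¹)
    (fun y => ι (P025H492.vl y.1 ((σ (s y.2)).1 u))) fun y => ι (P025H492.vl y.1 ((σ (s y.2)).1 v))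

/-- the function `f` of the theorem of Abel, on `X(l)` -/
structure Hf {l : ℕ} [CFF Qb (L (Gamma l))] (σ : GQ →* SL Qb (L (Gamma l))) (D : Subgroup GQ)
    (x y : L (Gamma l)) (R t : Pt A B) (f : L (Gamma l)) (Av : Plk Qb (L (Gamma l)) →₀ ℤ) :
    Prop where
  ne : f ≠ 0
  fx : ∀ g ∈ D, (σ g).1 f = f
  inv : ∀ g ∈ D, ∀ Q, Av (σ g • Q) = Av Q
  cu : ∀ Q, jL _ ∉ Q.1 → Val Q f 1 ∧ Av Q = 0
  dv : ∀ Q, jL _ ∈ Q.1 → ord Q f = Av Q - (pb x y (t + R) Q - pb x y t Q)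

/-- the same function on the upper half plane -/
structure Hc (N : ℕ) (x y : FF) (R t : Pt A B) (f : FF) (n : ℍ → ℤ) : Prop where
  mem : f ∈ L (Gamma0 N)
  ne : f ≠ 0
  cu : ∀ (l : ℕ) [CFF Qb (L (Gamma l))] (z : L (Gamma l)) (Q : Plk Qb (L (Gamma l))), Lv l → N ∣ l →
    (z : FF) = f → jL _ ∉ Q.1 → Val Q z 1
  dv : ∀ τ, od τ (cv f) = n τ - (pc x y (t + R) τ - pc x y t τ)

/-! ## rows -/

/-- the action on coefficients and the rationality of the parametrisation -/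
def GA : Prop := ∀ X : Mdl, (∀ l, Lv l → ∃ σ : GQ →* SL Qb (L (Gamma l)), Ga X σ) ∧
  ∀ N a A B w I x y, ParY N a A B w I (cv x) (cv y) → x ∈ L (Gamma0 N) ∧ y ∈ L (Gamma0 N) ∧
    ∀ g, X.gal g x = x ∧ X.gal g y = y

/-- **evaluation of the pairing** -/
def EVQ (Kz : KZ) : Prop := ∀ (X : Mdl) N G a A B w I (l n : ℕ) [CFF Qb (L (Gamma l))]
  (x y : L (Gamma l)) (hD : 4 * ((A : ℤ) : ℚ) ^ 3 + 27 * ((B : ℤ) : ℚ) ^ 2 ≠ 0)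
  (σ : GQ →* SL Qb (L (Gamma l))), RN N G a → ParY N a A B w I (cv x) (cv y) → N ∣ l → Lv l →
  2 ^ n ∣ l → Ga X σ → ∃ e : ℤ, Odd e ∧ ∀ (u v : L (Gamma l)) z, Kz X A B x y l n u v z →
    ∀ ι P (h : Ind ι P) (J : Type) [Fintype J] s p (W : J → ℤ), Kc.Tr ⊤ (Dr.Hm l) s p →
    (∀ g ∈ dec P, ∀ i, W (p g i) = W i) → ∀ R t R' f Av, R ∈ Fx A B (dec P) →
    t ∈ Fx A B (dec P) → 2 • t ≠ 0 → 2 • (t + R) ≠ 0 → 2 ^ n • R' = R →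
    Hf σ (dec P) x y R t f Av → Zn (dec P) n (zw s p W z) ∧
      Iv.iv P (cp (Ki.wp hD) n (Bt.dd A B R') (zw s p W z)) = sy2 h σ s p W Av n e u v

/-- **the theorem of Abel with the modulus of the cusps** -/
def ABQ : Prop := ∀ N G a A B (w : ℕ) I x y, RN N G a → ParY N a A B w I (cv x) (cv y) →
  ∃ (S : ℕ) (P : FreeAlgebra ℤ (PA S)) (m : ℕ), N ∣ S ∧ ev a P ≠ 0 ∧ Pj N a P ∧
    (∀ c, Vol (LL I) c → (m * c * w ^ 2 : ℂ) = 4 * π ^ 2 * pet2 N G G) ∧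
    ∀ τ0 τ1 (R0 R1 : Pt A B) n, Fr τ0 → Fr τ1 → Pv x y τ0 R0 → Pv x y τ1 R1 →
      cs n = Hd P (cs (orb N τ0 - orb N τ1)) → ∃ k : ℕ, 0 < k ∧ ∀ R t : Pt A B,
        R = (k * ev a P) • (R0 - R1) → 2 • t ≠ 0 → 2 • (t + R) ≠ 0 →
          ∃ f, Hc N x y R t f ((k * m : ℤ) • n)

/-- **the value of the symbol of two Siegel units** -/
def EVAL : Prop := ∀ ι P (h : Ind ι P) (M n l : ℕ), l = M * 2 ^ n → 0 < n → 0 < M → 2 ∣ M →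
  ∃ e : ℤ, Odd e ∧ ∀ (c d : ℕ) (Y : Type) (α : GQ → Y → Y) (S : Finset Y) (τ : Y → K) (W : Y → ℤ)
    (v v' : Y → ZMod l × ZMod l) (t f g : Y → ℂ_[2]), c ^ 2 % 24 = 1 → d ^ 2 % 24 = 1 →
    c.Coprime l → d.Coprime l → Sy.Ds (dec P) α S → Sy.Tw (dec P) α S n τ →
    f ∈ h.fd.G α S → g ∈ h.fd.G α S → (fun y => t y ^ l) ∈ h.fd.G α S →
    (fun y => ι (E (1 / l)) ^ (v y).2.val * t y ^ (v y).1.val) ∈ h.fd.G α S →
    (fun y => ι (E (1 / l)) ^ (v' y).2.val * t y ^ (v' y).1.val) ∈ h.fd.G α S →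
    (∀ j ∈ dec P, ∀ y ∈ S, W (α j y) = W y ∧ (v (α j y)).1 = (v y).1 ∧ (v' (α j y)).1 = (v' y).1) →
    (∀ y ∈ S, ‖t y‖ < 1 ∧ Gd (t y) ∧ (v y).1 ≠ 0 ∧ (v' y).1 ≠ 0 ∧
      IsUnit ((v y).1 * (v' y).2 - (v y).2 * (v' y).1) ∧
      hn n * (τ y * (((v y).1 * (v' y).2 - (v y).2 * (v' y).1).val : ℕ) - W y) ∈ O ∧
      Vf ι l (t y) (sF c (rw l (v y))) (f y) ∧ Vf ι l (t y) (sF d (rw l (v' y))) (g y)) →
    ∃ θ : K, am θ = ∑ y ∈ S, W y * Lm (t y)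
        (Es c l (ι (E (1 / l))) (v y) * Es d l (ι (E (1 / l))) (v' y)) ∧
      2 • h.fd.sym α S n τ f g = mq (2 * e * θ / (M * 4 ^ n))

/-- places and points of the upper half plane -/
def PT : Prop := ∀ (l : ℕ) [CFF Qb (L (Gamma l))], Lv l →
  (∀ Q : Plk Qb (L (Gamma l)), jL _ ∈ Q.1 → ∃ τ, Ac τ Q) ∧
  (∀ τ a, P004Z.EF.Val τ (cv Dc.jF) (io a) → ∃ Q : Plk Qb (L (Gamma l)), Ac τ Q) ∧
  ∀ τ τ' (Q : Plk Qb (L (Gamma l))), Ac τ Q → Ac τ' Q → ∃ γ ∈ Gamma l, γ • τ = τ'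

/-- points of the disc and points of the upper half plane -/
def MT : Prop := ∀ (ι : Qb →+* ℂ_[2]) (M l : ℕ) (Γ : Subgroup SL(2, ℤ)), 0 < M → 0 < l →
  Gamma l ≤ Γ → ModularGroup.T ^ M ∈ Γ →
  (∀ t a, t ≠ 0 → ‖t‖ < 1 → jv (t ^ M) = ι a → ∃ τ, Sm ι M Γ t τ) ∧
  ∀ t τ, Sm ι M Γ t τ → Fr τ ∧ (∀ τ', Sm ι M Γ t τ' ↔ ∃ γ ∈ Γ, γ • τ = τ') ∧
    ∀ t', Sm ι M Γ t' τ → t' ^ M = t ^ M

/-- Hecke operators on the disc and on the upper half plane -/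
def HK : Prop := ∀ (ι : Qb →+* ℂ_[2]) (N S : ℕ) (P : FreeAlgebra ℤ (PA S)) μ n, 0 < N → N ∣ S →
  Rp ι N μ n → ∃ n', Rp ι N (Hq P μ) n' ∧ cs n' = Hd P (cs n)

/-- Hecke operators and primitives -/
def LH : Prop :=
  (∀ (S : ℕ) (Q : FreeAlgebra ℤ (PA S)) μ, Ok μ → Ok (Hq Q μ) ∧
    (∀ ι P (h : Ind ι P), Iq h μ → Iq h (Hq Q μ)) ∧
    ∀ c : ℕ → ℂ_[2], (∃ b, ∀ n, ‖c n‖ ≤ b) →
      ∑ q ∈ (Hq Q μ).support, Hq Q μ q * Lm q (PowerSeries.mk c) =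
        ∑ q ∈ μ.support, μ q * Lm q (PowerSeries.mk (Hr ℂ_[2] Q c))) ∧
  ∀ (l : ℕ) (t : ℂ_[2]) (F : ℂ_[2]⟦X⟧), 0 < l → ‖t‖ < 1 → Gd (t ^ l) → (∃ b, ∀ n, ‖coeff n F‖ ≤ b) →
    (∀ n, ¬ l ∣ n → coeff n F = 0) → Lm t F = Lm (t ^ l) (PowerSeries.mk fun n => coeff (l * n) F) / l

/-- from the upper half plane to the places of `X(l)` -/
def PLQ : Prop := ∀ (X : Mdl) ι P (h : Ind ι P) (N l : ℕ) [CFF Qb (L (Gamma l))]
  (σ : GQ →* SL Qb (L (Gamma l))) (A B : ℤ) (x y f : L (Gamma l)) (R t : Pt A B) μ n, Lv l →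
  N ∣ l → Ga X σ → (∀ g, X.gal g x = x ∧ X.gal g y = y) → R ∈ Fx A B (dec P) →
  t ∈ Fx A B (dec P) → Rp ι N μ n → Iq h μ → Hc N x y R t f n →
  ∃ Av, Ab X ι N l μ Av ∧ Hf σ (dec P) x y R t f Av

/-- the fibres over the disc -/
def FEV : Prop := ∀ (X : Mdl) ι P (h : Ind ι P) (M n l : ℕ) [NeZero l] [CFF Qb (L (Gamma l))],
  l = M * 2 ^ n → 0 < n → 2 ∣ M → ∃ e' : ℤ, Odd e' ∧ ∀ (σ : GQ →* SL Qb (L (Gamma l))) (N c d : ℕ)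
    γ (u v : L (Gamma l)) (J : Type) [Fintype J] s p (κ : J → ℤ) w μ Av (t : ℂ_[2] → ℂ_[2]) (e : ℤ),
    Ga X σ → N ∣ l → Ad N l c d γ → (u : FF) = sF c (rg l γ 0) → (v : FF) = sF d (rg l γ 1) →
    Wt l (dec P) s p κ w → Ok μ → Iq h μ → (∀ q ∈ μ.support, ∃ a, jv q = ι a) →
    Ab X ι N l μ Av → (∀ q ∈ μ.support, t q ^ l = q) →
    ∃ θ : K, am θ = ∑ q ∈ μ.support, μ q * Lm (t q)
        (FS c d l (ι (E (1 / l))) (Ph N (γ 1 0) (γ 1 1) fun x => (w x : ℂ_[2]))) ∧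
      4 • sy2 h σ s p (fun i => w (κ i)) Av n e u v = mq (2 * (e * e') * θ / (M * 4 ^ n))

/-- the projection of the sum of products -/
def VAL : Prop := ∀ (ι : Qb →+* ℂ_[2]) N G a A B (w : ℕ) I x y (S l : ℕ) [NeZero l]
  (Q : FreeAlgebra ℤ (PA S)) (c d : ℕ) γ (ω : ZMod l → ℤ), RN N G a →
  ParY N a A B w I x y → N ∣ S → N ∣ l → Pj N a Q → Ad N l c d γ → (∀ x, ω x ≠ 0 → IsUnit x) →
  ∀ F, F = FS c d l (ι (E (1 / l))) (Ph N (γ 1 0) (γ 1 1) fun x => (ω x : ℂ_[2])) →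
    (∀ n, ¬ l ∣ n → coeff n F = 0) ∧ (∃ b, ∀ n, ‖coeff n F‖ ≤ b) ∧ ∃ κ : Qb,
      (Hr ℂ_[2] Q fun n => coeff (l * n) F) = (fun n => ι κ * a n) ∧
      io κ * pet2 N G G = ev a Q * (-Complex.I * l ^ 2 / (4 * π ^ 2)) * w *
        (Lw a (fun n => sm c d ω n) * conj (sy I γ) - Lw a (fun n => sm c d ω (-n)) * sy I γ)

/-- small points of the disc -/
def PAR : Prop := ∀ N G a A B (w : ℕ) I x y ι P (h : Ind ι P)
  (lg : Fx A B (dec P) →+ K), RN N G a → ParY N a A B w I (cv x) (cv y) → Lc.Lk ι lg →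
  ∃ q : Fin 2 → ℂ_[2], ∃ R : Fin 2 → Fx A B (dec P), lg (R 0) ≠ lg (R 1) ∧ ∀ i,
    q i ≠ 0 ∧ ‖q i‖ < 1 ∧ q i ∈ AA ∧ Gd (q i) ∧ (∃ b, jv (q i) = ι b) ∧
    (∀ g ∈ dec P, h.ro g (q i) = q i) ∧
    (∃ c d n, (R i).1 = .some c d n ∧ Vf ι 1 (q i) x (ι c) ∧ Vf ι 1 (q i) y (ι d)) ∧
    w * am (lg (R i)) = Lm (q i) (PowerSeries.mk fun n => (a n : ℂ_[2]))

/-- **the explicit reciprocity law** -/
def REC (Kz : KZ) : Prop := ∀ (X : Mdl) N G a A B (w : ℕ) I x y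
  (hD : 4 * ((A : ℤ) : ℚ) ^ 3 + 27 * ((B : ℤ) : ℚ) ^ 2 ≠ 0) ι P (h : Ind ι P)
  (lg : Fx A B (dec P) →+ K), RN N G a → ParY N a A B w I (cv x) (cv y) → Lc.Lk ι lg →
  ∃ R : Fx A B (dec P), lg R ≠ 0 ∧ ∀ M n l : ℕ, l = M * 2 ^ n → 0 < n → 0 < M → 2 ∣ M → N ∣ l →
    ∃ e : ℤ, Odd e ∧ ∀ (c d : ℕ) γ z, Ad N l c d γ →
      Kz X A B x y l n (sF c (rg l γ 0)) (sF d (rg l γ 1)) z →
      ∀ (J : Type) [Fintype J] s p (κ : J → ℤ) (ω : ZMod l → ℤ) R' c0, Wt l (dec P) s p κ ω →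
        2 ^ n • R' = R.1 → Vol (LL I) c0 → ∃ (b : Qb) (θ : K), am θ = ι b ∧
          io b * c0 = -Complex.I * (Lw a (fun n => sm c d ω n) * conj (sy I γ) -
            Lw a (fun n => sm c d ω (-n)) * sy I γ) ∧
          Zn (dec P) n (zw s p (fun i => ω (κ i)) z) ∧
          4 • Iv.iv P (cp (Ki.wp hD) n (Bt.dd A B R') (zw s p (fun i => ω (κ i)) z)) =
            mq (2 * e * hn n * lg R * θ)

end Vale.Agent.P014T.Rc
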