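import Vale.Agent.P014T.Nr.Grp
import Vale.Agent.P014T.Sg.Gc

/-!
# P014T, block REC, row FEV: matrices modulo `l`
-/

set_option autoImplicit false
set_option linter.all false

open CongruenceSubgroup Matrix
open scoped MatrixGroups Classical

noncomputable section

namespace Vale.Agent.P014T.Rc.Fv

/-- rows -/
abbrev Rw (l : ℕ) : Type := ZMod l × ZMod l

variable {l N : ℕ}

/-- the determinant -/
def dt (Y : Rw l × Rw l) : ZMod l := Y.1.1 * Y.2.2 - Y.1.2 * Y.2.1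

/-- the matrices of the sum -/
def Rs (N l : ℕ) [NeZero l] (γ : SL(2, ℤ)) : Finset (Rw l × Rw l) :=
  {Y | IsUnit (dt Y) ∧ N ∣ ((γ 1 0 : ZMod l) * Y.1.1 + γ 1 1 * Y.2.1).val}

/-- the rows of `γ⁻¹ diag(1, k) δ` -/
def mr (γ δ : SL(2, ℤ)) (k : ZMod l) (i : Fin 2) : Rw l :=
  (γ⁻¹ i 0 * δ 0 0 + γ⁻¹ i 1 * k * δ 1 0, γ⁻¹ i 0 * δ 0 1 + γ⁻¹ i 1 * k * δ 1 1)

/-- the matrix `γ⁻¹ diag(1, k) δ` -/
def mt (γ δ : SL(2, ℤ)) (k : ZMod l) : Rw l × Rw l := (mr γ δ k 0, mr γ δ k 1)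

/-- the action of `diag(1, k) T ^ b` -/
def sh (k b : ZMod l) (v : Rw l) : Rw l := (v.1, k * v.2 + b * v.1)

variable {γ δ δ' : SL(2, ℤ)} {k : ZMod l} {Y : Rw l × Rw l}

theorem dz (R : Type) [CommRing R] (γ : SL(2, ℤ)) :
    (γ 0 0 : R) * γ 1 1 - γ 0 1 * γ 1 0 = 1 := by
  have := γ.det_coe
  rw [det_fin_two] at this
  exact_mod_cast congrArg (Int.cast : ℤ → R) this

theorem iv (γ : SL(2, ℤ)) : γ⁻¹ 0 0 = γ 1 1 ∧ γ⁻¹ 0 1 = -γ 0 1 ∧ γ⁻¹ 1 0 = -γ 1 0 ∧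
    γ⁻¹ 1 1 = γ 0 0 := by
  simp [SpecialLinearGroup.coe_inv, adjugate_fin_two]

theorem mem_Rs [NeZero l] : Y ∈ Rs N l γ ↔
    IsUnit (dt Y) ∧ N ∣ ((γ 1 0 : ZMod l) * Y.1.1 + γ 1 1 * Y.2.1).val := by
  simp [Rs]

theorem b1 (γ δ : SL(2, ℤ)) (k : ZMod l) : dt (mt γ δ k) = k := by
  simp only [dt, mt, mr]
  linear_combination k * ((δ 0 0 : ZMod l) * δ 1 1 - δ 0 1 * δ 1 0) * dz (ZMod l) γ⁻¹ +
    k * dz (ZMod l) δ

/-- `γ * mt = diag(1, k) δ` -/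
theorem un (γ δ : SL(2, ℤ)) (k : ZMod l) :
    γ 0 0 * (mr γ δ k 0).1 + γ 0 1 * (mr γ δ k 1).1 = δ 0 0 ∧
    γ 0 0 * (mr γ δ k 0).2 + γ 0 1 * (mr γ δ k 1).2 = δ 0 1 ∧
    γ 1 0 * (mr γ δ k 0).1 + γ 1 1 * (mr γ δ k 1).1 = k * δ 1 0 ∧
    γ 1 0 * (mr γ δ k 0).2 + γ 1 1 * (mr γ δ k 1).2 = k * δ 1 1 := by
  obtain ⟨a, b, c, d⟩ := iv γ
  have := dz (ZMod l) γ
  simp only [mr, a, b, c, d, Int.cast_neg]
  exact ⟨by linear_combination (δ 0 0 : ZMod l) * this, by linear_combination (δ 0 1 : ZMod l) * this,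
    by linear_combination k * δ 1 0 * this, by linear_combination k * δ 1 1 * this⟩

theorem dv [NeZero l] (h : N ∣ l) (x : ZMod l) : N ∣ x.val ↔ ZMod.castHom h (ZMod N) x = 0 := by
  rw [← ZMod.natCast_eq_zero_iff, ZMod.castHom_apply, ZMod.natCast_val]

theorem b2 [NeZero l] (h : N ∣ l) (hk : IsUnit k) : mt γ δ k ∈ Rs N l γ ↔ δ ∈ Gamma0 N := by
  rw [mem_Rs, b1, and_iff_right hk, dv h]
  refine ((congrArg _ (un γ δ k).2.2.1).congr_left).trans ?_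
  rw [map_mul, map_intCast, (hk.map _).mul_right_eq_zero, Gamma0_mem]

/-- `SL(2, ℤ) → SL(2, ℤ / l)` is onto -/
theorem lift [NeZero l] {a b c d : ZMod l} (h : a * d - b * c = 1) : ∃ δ : SL(2, ℤ),
    (δ 0 0 : ZMod l) = a ∧ (δ 0 1 : ZMod l) = b ∧ (δ 1 0 : ZMod l) = c ∧ (δ 1 1 : ZMod l) = d := by
  obtain ⟨δ, e⟩ := Nr.lift (n := l) (G := !![a.val, b.val; c.val, d.val])
    (Nat.cast_ne_zero.2 (NeZero.ne l)) ((ZMod.intCast_zmod_eq_zero_iff_dvd _ _).1 (by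
      simp [det_fin_two_of, h]))
  have := fun i j => (ZMod.intCast_zmod_eq_zero_iff_dvd _ _).2 (e i j)
  simp only [Int.cast_sub, sub_eq_zero] at this
  exact ⟨δ, by simpa using this 0 0, by simpa using this 0 1, by simpa using this 1 0,
    by simpa using this 1 1⟩

theorem b3 [NeZero l] (γ : SL(2, ℤ)) (h : IsUnit (dt Y)) : ∃ δ, mt γ δ (dt Y) = Y := by
  obtain ⟨u, hu⟩ := h.exists_right_inv
  have g := dz (ZMod l) γ
  obtain ⟨δ, e1, e2, e3, e4⟩ := lift (l := l) (a := Y.1.1 * γ 0 0 + Y.2.1 * γ 0 1)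
    (b := Y.1.2 * γ 0 0 + Y.2.2 * γ 0 1) (c := u * (Y.1.1 * γ 1 0 + Y.2.1 * γ 1 1))
    (d := u * (Y.1.2 * γ 1 0 + Y.2.2 * γ 1 1)) (by
      rw [dt] at hu
      linear_combination hu + u * (Y.1.1 * Y.2.2 - Y.1.2 * Y.2.1) * g)
  obtain ⟨a, b, c, d⟩ := iv γ
  refine ⟨δ, Prod.ext (Prod.ext ?_ ?_) (Prod.ext ?_ ?_)⟩ <;>
    simp only [mt, mr, a, b, c, d, e1, e2, e3, e4, Int.cast_neg]
  · linear_combination Y.1.1 * g - (Y.1.1 * γ 1 0 + Y.2.1 * γ 1 1) * γ 0 1 * hu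
  · linear_combination Y.1.2 * g - (Y.1.2 * γ 1 0 + Y.2.2 * γ 1 1) * γ 0 1 * hu
  · linear_combination Y.2.1 * g + (Y.1.1 * γ 1 0 + Y.2.1 * γ 1 1) * γ 0 0 * hu
  · linear_combination Y.2.2 * g + (Y.1.2 * γ 1 0 + Y.2.2 * γ 1 1) * γ 0 0 * hu

theorem gam : δ * δ'⁻¹ ∈ Gamma l ↔ (δ 0 0 : ZMod l) = δ' 0 0 ∧ (δ 0 1 : ZMod l) = δ' 0 1 ∧
    (δ 1 0 : ZMod l) = δ' 1 0 ∧ (δ 1 1 : ZMod l) = δ' 1 1 := by
  rw [Gamma_mem', map_mul, map_inv, mul_inv_eq_one]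
  refine (Matrix.SpecialLinearGroup.ext_iff _ _).trans ?_
  simp only [Fin.forall_fin_two, and_assoc]
  rfl

theorem b4 (hk : IsUnit k) : mt γ δ k = mt γ δ' k ↔ δ * δ'⁻¹ ∈ Gamma l := by
  rw [gam]
  refine ⟨fun e => ?_, fun ⟨a, b, c, d⟩ => by simp only [mt, mr, a, b, c, d]⟩
  obtain ⟨e0, e1⟩ := Prod.ext_iff.1 e
  obtain ⟨a, b, c, d⟩ := un γ δ k
  obtain ⟨a', b', c', d'⟩ := un γ δ' k
  simp only [mt] at e0 e1
  rw [e0, e1] at a b c d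
  exact ⟨a.symm.trans a', b.symm.trans b', hk.mul_left_cancel (c.symm.trans c'),
    hk.mul_left_cancel (d.symm.trans d')⟩

theorem mr_neg (γ δ : SL(2, ℤ)) (k : ZMod l) (i : Fin 2) : mr γ (-δ) k i = -mr γ δ k i := by
  simp only [mr, SpecialLinearGroup.coe_neg, neg_apply, Int.cast_neg, Prod.neg_mk]
  exact Prod.ext (by ring) (by ring)

theorem mt_neg (γ δ : SL(2, ℤ)) (k : ZMod l) : mt γ (-δ) k = -mt γ δ k := by
  simp only [mt, mr_neg, Prod.neg_mk]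

theorem b5 [NeZero l] (δ : SL(2, ℤ)) {k' : ℤ} (b : ℤ) (h : IsCoprime k' (l : ℤ)) :
    ∃ δ', P027M.M.Tw l k' δ δ' ∧ ∀ γ (k : ZMod l) i,
      mr γ (δ' * ModularGroup.T ^ b) ((k' : ZMod l) * k) i = sh k' b (mr γ δ k i) := by
  obtain ⟨u, v, e⟩ := h
  have e' : (u : ZMod l) * k' = 1 := by simpa using congrArg (Int.cast : ℤ → ZMod l) e
  obtain ⟨δ', e1, e2, e3, e4⟩ := lift (l := l) (a := δ 0 0) (b := k' * δ 0 1) (c := u * δ 1 0)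
    (d := δ 1 1) (by linear_combination dz (ZMod l) δ - (δ 0 1 : ZMod l) * δ 1 0 * e')
  refine ⟨δ', ?_, fun γ k i => ?_⟩
  · simp only [P027M.M.Tw, ← ZMod.intCast_zmod_eq_zero_iff_dvd, Int.cast_sub, Int.cast_mul, e1, e2,
      e3, e4, sub_self, true_and, and_true]
    linear_combination (δ 1 0 : ZMod l) * e'
  · have t : ∀ i, (δ' * ModularGroup.T ^ b) i 0 = δ' i 0 ∧
        (δ' * ModularGroup.T ^ b) i 1 = δ' i 0 * b + δ' i 1 := fun i => by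
      simp [ModularGroup.coe_T_zpow, Nr.mm]
    simp only [mr, sh, t, Int.cast_add, Int.cast_mul, e1, e2, e3, e4]
    exact Prod.ext (by linear_combination k * γ⁻¹ i 1 * δ 1 0 * e')
      (by linear_combination k * b * γ⁻¹ i 1 * δ 1 0 * e')

theorem b6 [NeZero l] (h : N ∣ l) (g0 : ¬ (N : ℤ) ∣ γ 1 0) (g1 : ¬ (N : ℤ) ∣ γ 1 1)
    (m : Y ∈ Rs N l γ) : Y.1.1 ≠ 0 ∧ Y.2.1 ≠ 0 := by
  obtain ⟨m1, m2⟩ := mem_Rs.1 m
  rw [dv h] at m2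
  refine ⟨fun e => g1 ?_, fun e => g0 ?_⟩ <;> rw [dt, e] at m1 <;>
    rw [e, mul_zero] at m2 <;> rw [← ZMod.intCast_zmod_eq_zero_iff_dvd]
  · rw [zero_mul, zero_sub, IsUnit.neg_iff] at m1
    rwa [zero_add, map_mul, map_intCast,
      ((isUnit_of_mul_isUnit_right m1).map _).mul_left_eq_zero] at m2
  · rw [mul_zero, sub_zero] at m1
    rwa [add_zero, map_mul, map_intCast,
      ((isUnit_of_mul_isUnit_left m1).map _).mul_left_eq_zero] at m2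

theorem neg_ne [NeZero l] (h : 4 ∣ l) (hY : IsUnit (dt Y)) : -Y ≠ Y := fun e => by
  have a := congrArg (·.1.1) e
  have b := congrArg (·.2.1) e
  simp only [Prod.fst_neg, Prod.snd_neg] at a b
  have : ((2 : ℕ) : ZMod l) = 0 := hY.mul_left_eq_zero.1 (by
    rw [dt, Nat.cast_ofNat]
    linear_combination Y.1.2 * b - Y.2.2 * a)
  exact absurd (h.trans ((ZMod.natCast_eq_zero_iff _ _).1 this)) (by norm_num)

theorem dt_neg (Y : Rw l × Rw l) : dt (-Y) = dt Y := by simp [dt]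

theorem neg_mem [NeZero l] (h : N ∣ l) (m : Y ∈ Rs N l γ) : -Y ∈ Rs N l γ := by
  rw [mem_Rs, dv h] at m ⊢
  refine ⟨dt_neg Y ▸ m.1, ?_⟩
  rw [← neg_eq_zero, ← map_neg, ← m.2]
  simp [add_comm]

theorem fr [NeZero l] (x : ℤ) : ∃ m : ℤ, (x : ℚ) / l = ((x : ZMod l).val : ℚ) / l + m := by
  refine ⟨x / l, ?_⟩
  have l0 : (l : ℚ) ≠ 0 := Nat.cast_ne_zero.2 (NeZero.ne l)
  have := congrArg (Int.cast : ℤ → ℚ) ((congrArg (· + l * (x / l)) (ZMod.val_intCast (n := l) x)).trans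
    (Int.emod_add_mul_ediv x l))
  push_cast at this
  field_simp
  linear_combination -this

/-- the right side is `rw l (mr γ δ κ i) j + m`, the left vector is made of `rg l γ i` -/
theorem b7 [NeZero l] (γ δ : SL(2, ℤ)) (κ : ℤ) (i j : Fin 2) : ∃ m : ℤ,
    Sg.vg ![(γ⁻¹ i 0 : ℚ) / l, κ * ((γ⁻¹ i 1 : ℚ) / l)] δ j =
      (![((mr γ δ (κ : ZMod l) i).1.val : ℚ) / l, ((mr γ δ (κ : ZMod l) i).2.val : ℚ) / l] :
        Fin 2 → ℚ) j + m := by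
  obtain ⟨m, e⟩ := fr (l := l) (γ⁻¹ i 0 * δ 0 j + γ⁻¹ i 1 * κ * δ 1 j)
  refine ⟨m, ?_⟩
  push_cast at e
  rw [Sg.vg_apply, show (![_, _] : Fin 2 → ℚ) j = _ / l from ?_, ← e]
  · simp only [cons_val_zero, cons_val_one]
    ring
  · revert j
    exact Fin.forall_fin_two.2 ⟨fun _ => rfl, fun _ => rfl⟩

theorem nz {c : ℕ} (hc : c.Coprime l) (l1 : 1 < l) (γ : SL(2, ℤ)) (i : Fin 2) :
    Sg.Nz c fun j => (γ⁻¹ i j : ℚ) / l := fun h => by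
  have l0 : (l : ℚ) ≠ 0 := Nat.cast_ne_zero.2 (by omega)
  have d : ∀ j, (γ⁻¹ i j : ZMod l) = 0 := fun j => by
    obtain ⟨m, e⟩ := h j
    have e1 : (c * γ⁻¹ i j : ℤ) = l * m := by
      have : (c * γ⁻¹ i j : ℚ) = l * m := by rw [← e]; field_simp
      exact_mod_cast this
    refine ((ZMod.isUnit_iff_coprime c l).2 hc).mul_right_eq_zero.1 ?_
    simpa using congrArg (Int.cast : ℤ → ZMod l) e1
  have g := dz (ZMod l) γ⁻¹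
  have : Fact (1 < l) := ⟨l1⟩
  revert i
  refine Fin.forall_fin_two.2 ⟨fun _ d => ?_, fun _ d => ?_⟩ <;> rw [d 0, d 1] at g <;> simp at g

theorem den (l0 : 0 < l) (γ : SL(2, ℤ)) (i j : Fin 2) :
    ∃ k : ℤ, (l : ℚ) * ((γ⁻¹ i j : ℚ) / l) = k :=
  ⟨γ⁻¹ i j, mul_div_cancel₀ _ (Nat.cast_ne_zero.2 l0.ne')⟩

end Vale.Agent.P014T.Rc.Fv
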