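import Vale.Agent.P014T.Rc.Fv0
import Vale.Agent.P014T.Dc.Sv

/-!
# P014T, block REC, row FEV: the values of conjugates of Siegel units on a fibre
-/

set_option autoImplicit false
set_option linter.all false

open CongruenceSubgroup Matrix
open scoped MatrixGroups Classical

noncomputable section

namespace Vale.Agent.P014T.Rc.Fv

open Vale.Agent.P022 (Qb GQ)
open Vale.Agent.P027M.M Vale.Agent.P019P Dc Sg
open P027M.K (Val)

variable {C : Type} [NontriviallyNormedField C] [IsUltrametricDist C] [CompleteSpace C]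
  {ι : Qb →+* C} {l c : ℕ} [NeZero l] {γ δ : SL(2, ℤ)} {s : GQ} {κ : ℤ} {i : Fin 2} {t : C}

theorem nz_k (hc : c.Coprime l) (l1 : 1 < l) (hκ : IsCoprime κ (l : ℤ)) (γ : SL(2, ℤ))
    (i : Fin 2) : Nz c ![(γ⁻¹ i 0 : ℚ) / l, κ * ((γ⁻¹ i 1 : ℚ) / l)] :=
  Nz.gal (N := l) ((nz hc l1 γ i).congr (Fin.forall_fin_two.2 ⟨⟨0, by simp⟩, 0, by simp⟩)) hκ
    (den (NeZero.pos l) γ i 1)

theorem nz_mr (hc : c.Coprime l) (l1 : 1 < l) (hκ : IsCoprime κ (l : ℤ)) (γ δ : SL(2, ℤ))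
    (i : Fin 2) : Nz c ![((mr γ δ (κ : ZMod l) i).1.val : ℚ) / l,
      ((mr γ δ (κ : ZMod l) i).2.val : ℚ) / l] :=
  ((nz_k hc l1 hκ γ i).vg δ).congr (b7 γ δ κ i)

/-- the conjugate of a Siegel unit, moved by `δ` -/
theorem pg_gal (X : Mdl) (h24 : c ^ 2 % 24 = 1) (hc : c.Coprime l) (l1 : 1 < l) (hs : Cyc l s κ)
    (γ δ : SL(2, ℤ)) (i : Fin 2) : X.pg δ (X.gal s (sF c fun j => (γ⁻¹ i j : ℚ) / l)) =
      sF c ![((mr γ δ (κ : ZMod l) i).1.val : ℚ) / l, ((mr γ δ (κ : ZMod l) i).2.val : ℚ) / l] := by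
  have l0 := NeZero.pos l
  have e : (fun j => (γ⁻¹ i j : ℚ) / l) = ![(γ⁻¹ i 0 : ℚ) / l, (γ⁻¹ i 1 : ℚ) / l] :=
    funext (Fin.forall_fin_two.2 ⟨rfl, rfl⟩)
  rw [e, sF_gal h24 X (e ▸ nz hc l1 γ i) l0 (e ▸ den l0 γ i) hs,
    sF_pg h24 X (nz_k hc l1 ((serg l l0 s).2 κ hs).1 γ i), sF_congr h24 (b7 γ δ κ i)]

/-- **the value at a place of the fibre** -/
theorem val_mt (X : Mdl) (h24 : c ^ 2 % 24 = 1) (hc : c.Coprime l) (l1 : 1 < l) (hs : Cyc l s κ)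
    [CFF Qb (L (Gamma l))] {y : Plk Qb (L (Gamma l))} (k : At ι l t (eg X δ _) y) (h0 : t ≠ 0)
    (h1 : ‖t‖ < 1) {z : L (Gamma l)} (hz : (z : FF) = X.gal s (sF c fun j => (γ⁻¹ i j : ℚ) / l)) :
    Vf ι l t (sF c ![((mr γ δ (κ : ZMod l) i).1.val : ℚ) / l,
      ((mr γ δ (κ : ZMod l) i).2.val : ℚ) / l]) (ι (P025H492.vl y z)) ∧
    P025H492.vl y z ≠ 0 ∧ Val y z (P025H492.vl y z) := by
  have l0 := NeZero.pos l
  have n := nz_mr hc l1 ((serg l l0 s).2 κ hs).1 γ δ i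
  have v := vf_sF (ι := ι) h24 (ZMod.val_lt _) n h0 h1
  obtain ⟨a, e, w⟩ := k.alg (z := z) l0 (by rw [eg_apply, hz, pg_gal X h24 hc l1 hs]; exact v)
  rw [P025H492.vl_eq w]
  exact ⟨e ▸ v, fun a0 => sv_ne h0 h1 (ZMod.val_lt _) n (by rw [← e, a0, map_zero]), w⟩

/-- **the Galois action on the fibres**, two base points -/
theorem gal_at (X : Mdl) (hl : Lv l) [CFF Qb (L (Gamma l))] (ρ : C →+* C) (h1 : ∀ a, ‖ρ a‖ = ‖a‖)
    (h2 : ∀ a, ρ (ι a) = ι (s a)) (hs : Cyc l s κ) {δ' : SL(2, ℤ)} (hδ : Tw l κ δ δ') {b : ℤ} {t' : C}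
    (hb : ρ t = ι (P022K.QT.Cu.E (b / l)) * t') (φ : L (Gamma l) ≃+* L (Gamma l))
    (hφ : ∀ z, ((φ z : L (Gamma l)) : FF) = X.gal s z) {y y' : Plk Qb (L (Gamma l))}
    (hy : ∀ z, φ z ∈ y'.1 ↔ z ∈ y.1) (k : At ι l t (eg X δ _) y) :
    At ι l t' (eg X (δ' * ModularGroup.T ^ b) _) y' := by
  have := k.conj (e' := eg X δ' _) X hl.pos ρ h1 h2 φ (fun a => Subtype.ext ((hφ _).trans
    ((x_galx X).2.1 s a))) (fun z => by
      rw [eg_apply, eg_apply, hφ, (x_shim X l hl s _ hs).2 δ δ' hδ _ ((L_Gt X l).ge z.2)]) hy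
  rw [hb] at this
  rw [← eg_comp]
  exact this.tr X hl.pos b

omit [IsUltrametricDist C] [CompleteSpace C] in
/-- two roots of order `l` differ by a root of unity -/
theorem ex_b {t' : C} (h0 : t' ≠ 0) (e : t ^ l = t' ^ l) :
    ∃ b : ℕ, t = ι (P022K.QT.Cu.E (b / l)) * t' := by
  have l0 := NeZero.pos l
  have n : (l : ℚ) ≠ 0 := Nat.cast_ne_zero.2 l0.ne'
  have p : IsPrimitiveRoot (P022K.QT.Cu.E (1 / l)) l := .mk_of_lt _ l0
    (by rw [← P022K.QT.Cu.E_nat, mul_one_div_cancel n, ← Int.cast_one, P022K.QT.Cu.E_int])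
    fun m a b e => by
      rw [← P022K.QT.Cu.E_nat, P022K.QT.Cu.E_eq_one] at e
      obtain ⟨c, e⟩ := e
      rw [mul_one_div, div_eq_iff n] at e
      exact (Nat.le_of_dvd a (Int.natCast_dvd_natCast.1
        ⟨c, by rw [mul_comm]; exact_mod_cast e⟩)).not_gt b
  obtain ⟨b, -, hb⟩ := (p.map_of_injective ι.injective).eq_pow_of_pow_eq_one (ξ := t / t')
    (by rw [div_pow, e, div_self (pow_ne_zero _ h0)])
  exact ⟨b, by rw [← mul_one_div, P022K.QT.Cu.E_nat, map_pow, hb, div_mul_cancel₀ _ h0]⟩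

end Vale.Agent.P014T.Rc.Fv
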