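import Vale.Agent.P014T.Rc.St
import Vale.Agent.P014T.Dc.Tq
import Vale.Agent.P014T.Uy.Cm
import Vale.Agent.P004Z.Ar.Adj

/-!
# P014T, block REC, row HK: Hecke operators on the disc and on the upper half plane
-/

set_option autoImplicit false
set_option linter.all false

open scoped Classical MatrixGroups UpperHalfPlane
open CongruenceSubgroup

noncomputable section

namespace Vale.Agent.P014T.Rc

open Vale.Agent.P022 Vale.Agent.P027M.M Vale.Agent.P022.H231.L3 Vale.Agent.P022.H218.L3 Dc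
open Vale.Agent.P022K.QT.Cu
open Vale.Agent.P004Z (PA Tdiv)
open Vale.Agent.P004Z.Ar (cs mb mb_mul mb_SL mb_adj mb_al al_pos Tdiv_eq Cs ex_cs)
open P004N.H461 (al_det)

namespace Hk

variable {ι : Qb →+* ℂ_[2]} {N l : ℕ} {q r : ℂ_[2]} {τ : ℍ} {μ μ' : ℂ_[2] →₀ ℤ} {n n' : ℍ → ℤ}

theorem val_pb (X : Mdl) {A : M2} (hA : 0 < A.det) {x : FF} {c : ℂ} :
    P004Z.EF.Val τ (cv (X.pb A hA x)) c ↔ P004Z.EF.Val (mb A τ) (cv x) c := by
  rw [X.pb_coe, pbz, mb, dif_pos hA]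
  refine ⟨fun h => ?_, Pu.val_pb _⟩
  obtain ⟨h1, h2⟩ := Pu.val_iff.1 h
  have k := (Pu.reg_pb _).1 h1
  exact Pu.val_iff.2 ⟨k, (Pu.val_iff.1 (Pu.val_pb _ (Pu.val_iff.2 ⟨k, rfl⟩))).2.symm.trans h2⟩

/-- the group fixing a set of functions -/
def fx (Z : Set FF) : Subgroup SL(2, ℤ) where
  carrier := {γ | ∀ z ∈ Z, act γ (cv z) = cv z}
  one_mem' z _ := by rw [map_one]; rfl
  mul_mem' a b z h := by rw [map_mul, AlgEquiv.mul_apply, b z h, a z h]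
  inv_mem' {γ} a z h := by
    conv_lhs => rw [← a z h, ← AlgEquiv.mul_apply, ← map_mul, inv_mul_cancel, map_one]
    rfl

theorem g0 (N : ℕ) : Gamma N ≤ Gamma0 N := fun γ h => Gamma0_mem.2 (Gamma_mem.1 h).2.2.1

theorem T0 (N : ℕ) : ModularGroup.T ^ 1 ∈ Gamma0 N := by
  simp [Gamma0_mem, ModularGroup.coe_T]

theorem lf1 {f : FF} (h : f ∈ L (Gamma0 N)) : Lf 1 f := lf_of_mem one_pos (T0 N) h

theorem zl (hl : 0 < l) : IsPrimitiveRoot (ι (E (1 / l))) l := by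
  refine IsPrimitiveRoot.map_of_injective ?_ ι.injective
  refine IsPrimitiveRoot.mk_of_lt _ hl (by
    rw [← E_nat, mul_one_div_cancel (Nat.cast_ne_zero.2 hl.ne'), E_eq_one]; exact ⟨1, by simp⟩)
    fun k k0 k1 e => ?_
  rw [← E_nat, E_eq_one] at e
  obtain ⟨m, e⟩ := e
  have : (k : ℤ) = m * l := by
    rw [mul_one_div, div_eq_iff (Nat.cast_ne_zero.2 hl.ne')] at e
    exact_mod_cast e
  exact absurd (Int.le_of_dvd (by omega) ⟨m, this.trans (mul_comm _ _)⟩) (by omega)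

/-- the points of the disc next to `r ^ l` -/
def nx (ι : Qb →+* ℂ_[2]) (l : ℕ) (r : ℂ_[2]) : Option (Fin l) → ℂ_[2]
  | none => (r ^ l) ^ l
  | some j => ι (E (1 / l)) ^ (j : ℕ) * r

theorem vf_al (X : Mdl) (hl : l.Prime) (h1 : ‖r‖ < 1) {f : FF} (hf : Lf 1 f) (j : Option (Fin l)) :
    Lf l (X.pb _ (al_pos hl j) f) ∧
      ∀ c, Vf ι l r (X.pb _ (al_pos hl j) f) c ↔ Vf ι 1 (nx ι l r j) f c := by
  have l0 := hl.pos
  have k1 : ‖r ^ l‖ < 1 := by rw [norm_pow]; exact pow_lt_one₀ (norm_nonneg _) h1 l0.ne'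
  obtain ⟨x, hx⟩ := id hf
  cases j with
  | none =>
    have e := pb_congr X (A := P004N.H461.al l none) (B := !![(l : ℤ), 0; 0, ((1 : ℕ) : ℤ)]) rfl
      (al_pos hl _) (tri_pos 0 l0 one_pos)
    have k : Lf 1 (X.pb _ (tri_pos 0 l0 one_pos) f) := ⟨_, hx.pb X one_pos 0 l0 one_pos _⟩
    rw [e]
    refine ⟨by simpa using k.up one_pos l0, fun c => ?_⟩
    have a := vf_up (ι := ι) (c := c) one_pos l0 k h1
    have b := vf_pb (ι := ι) (c := c) X one_pos 0 l0 one_pos (tri_pos 0 l0 one_pos) hf k1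
    rw [one_mul] at a b
    rw [a, b, nx]
    simp [E_zero]
  | some j =>
    have e := pb_congr X (A := P004N.H461.al l (some j))
      (B := !![((1 : ℕ) : ℤ), ((j : ℕ) : ℤ); 0, (l : ℤ)]) rfl (al_pos hl _) (tri_pos _ one_pos l0)
    rw [e]
    have k : Lf (1 * l) (X.pb _ (tri_pos (j : ℕ) one_pos l0) f) := ⟨_, hx.pb X one_pos _ one_pos l0 _⟩
    refine ⟨by rwa [one_mul] at k, fun c => ?_⟩
    have b := vf_pb (ι := ι) (c := c) X one_pos ((j : ℕ) : ℤ) one_pos l0 (tri_pos _ one_pos l0) hf h1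
    rw [one_mul] at b
    rw [b, nx, ← map_pow, ← E_nat, pow_one, mul_one_div, Int.cast_natCast]

theorem nx_lt (hl : 0 < l) (h0 : r ≠ 0) (h1 : ‖r‖ < 1) (j : Option (Fin l)) :
    nx ι l r j ≠ 0 ∧ ‖nx ι l r j‖ < 1 := by
  cases j with
  | none => exact ⟨by simp [nx, h0], by
      rw [nx, ← pow_mul, norm_pow]; exact pow_lt_one₀ (norm_nonneg _) h1 (by positivity)⟩
  | some j => exact ⟨mul_ne_zero (pow_ne_zero _ ((map_ne_zero ι).2 (E_ne _))) h0, by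
      rwa [nx, norm_mul, norm_pow, norm_E, one_pow, one_mul]⟩

variable (mt : MT) (hN : 0 < N)
include mt hN

theorem orb (h : Sm ι 1 (Gamma0 N) q τ) {γ : SL(2, ℤ)} (k : γ ∈ Gamma0 N) :
    Sm ι 1 (Gamma0 N) q (γ • τ) :=
  (((mt ι 1 N _ one_pos hN (g0 N) (T0 N)).2 q τ h).2.1 _).2 ⟨γ, k, rfl⟩

theorem uniq (h : Sm ι 1 (Gamma0 N) q τ) (k : Sm ι 1 (Gamma0 N) r τ) : r = q := by
  simpa using ((mt ι 1 N _ one_pos hN (g0 N) (T0 N)).2 q τ h).2.2 _ k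

/-- **the neighbours** -/
theorem key (hl : l.Prime) (h : Sm ι 1 (Gamma0 N) (r ^ l) τ) : ∃ γ ∈ Gamma0 N, ∀ j,
    Sm ι 1 (Gamma0 N) (nx ι l r j) (mb (P004N.H461.al l j) (γ • τ)) := by
  obtain ⟨X⟩ := mdl
  have l0 := hl.pos
  have r0 : r ≠ 0 := fun e => h.ne (by rw [e, zero_pow l0.ne'])
  have r1 : ‖r‖ < 1 := by
    have := h.lt
    rwa [norm_pow, pow_lt_one_iff_of_nonneg (norm_nonneg _) l0.ne'] at this
  set Z : Set FF := {z | z ∈ L (Gamma0 N) ∨ ∃ j, ∃ f ∈ L (Gamma0 N), z = X.pb _ (al_pos hl j) f}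
  have m {z} (hz : z ∈ Z) : z ∈ L (fx Z) := fun γ k => k z hz
  have k1 : Gamma (N * l) ≤ fx Z := fun γ k z hz => by
    rcases hz with hz | ⟨j, f, hf, rfl⟩
    · exact hz γ (g0 N (gamma_le k))
    · have := Uy.pb_gamma X (al_pos hl j) (L_mono (g0 N) hf)
      rw [al_det, Int.natAbs_natCast] at this
      exact this γ k
  have k2 : ModularGroup.T ^ l ∈ fx Z := fun z hz => (lf_iff l0).1 (by
    rcases hz with hz | ⟨j, f, hf, rfl⟩
    · simpa using (lf1 hz).up one_pos l0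
    · exact (vf_al (ι := ι) X hl r1 (lf1 hf) j).1)
  obtain ⟨a, ha⟩ := h.alg
  rw [pow_one] at ha
  obtain ⟨τ', s⟩ := (mt ι l (N * l) _ l0 (by positivity) k1 k2).1 r a r0 r1 ha
  have s' : Sm ι 1 (Gamma0 N) (r ^ l) τ' := ⟨h.ne, h.lt, h.alg, fun f hf b => by
    rw [← vf_up one_pos l0 (lf1 hf) r1, one_mul]
    exact s.val f (m (.inl hf)) b⟩
  obtain ⟨γ, k, rfl⟩ := (((mt ι 1 N _ one_pos hN (g0 N) (T0 N)).2 _ τ h).2.1 _).1 s'
  refine ⟨γ, k, fun j => ⟨(nx_lt l0 r0 r1 j).1, (nx_lt l0 r0 r1 j).2, ?_, fun f hf b => ?_⟩⟩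
  · haveI := cff _ (fi_gamma (by positivity) k1)
    obtain ⟨P, hP, -⟩ := ex_at_j (ι := ι) (e := algebraMap (L (fx Z)) FF) l0
      (fun z => lf_of_mem l0 k2 z.2) (fun _ => rfl) r0 r1 (j := jL _) rfl ha
    have := ((vf_al (ι := ι) X hl r1 (lf1 (N := N) (jF_mem _)) j).2 _).2
      (vf_j one_pos (nx_lt l0 r0 r1 j).1 (nx_lt l0 r0 r1 j).2)
    obtain ⟨b, e, -⟩ := hP.alg l0 (z := ⟨_, m (.inr ⟨j, _, jF_mem _, rfl⟩)⟩) this
    exact ⟨b, e.symm⟩
  · rw [← (vf_al X hl r1 (lf1 hf) j).2, ← val_pb X (al_pos hl j)]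
    exact s.val _ (m (.inr ⟨j, f, hf, rfl⟩)) b

theorem back (hl : l.Prime) (hM : ¬ l ∣ N) {j : Option (Fin l)}
    (h : Sm ι 1 (Gamma0 N) q (mb (P004N.H461.al l j) τ)) : ∃ q', Sm ι 1 (Gamma0 N) q' τ := by
  obtain ⟨r, rfl⟩ := IsAlgClosed.exists_pow_nat_eq q hl.pos
  obtain ⟨γ, k, s⟩ := key mt hN hl h
  have c : Cs N l j _ := ⟨γ, k, rfl⟩
  obtain ⟨i, g, d, f⟩ := c.adj hl hM
  refine ⟨nx ι l r i, ?_⟩
  have := orb mt hN (s i) d
  rwa [← mb_al hl, ← f, ← mb_al hl, mb_adj (c.det ▸ Int.natCast_pos.2 hl.pos)] at this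

theorem inv (h : Rp ι N μ n) : P004Z.Ar.Inv N n := fun γ k τ => by
  by_cases e : n τ = 0
  · by_contra e'
    obtain ⟨q, s⟩ := h.sup _ fun c => e' (c.trans e.symm)
    have := orb mt hN s (inv_mem k)
    rw [inv_smul_smul] at this
    exact e' ((h.eq q _ s).trans (h.eq q _ this).symm)
  · obtain ⟨q, s⟩ := h.sup _ e
    rw [h.eq q _ s, h.eq q _ (orb mt hN s k)]

theorem step (hl : l.Prime) (hM : ¬ l ∣ N) (h : Rp ι N μ n) :
    ∃ n', Rp ι N (TQ l μ) n' ∧ cs n' = Tdiv l (cs n) := by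
  have e : cs (fun z => ∑ j, n (mb (P004N.H461.al l j) z)) = Tdiv l (cs n) :=
    funext fun z => by simp [cs, Tdiv_eq hl]
  refine ⟨_, ⟨fun q hq => ?_, fun q τ s => ?_, fun τ k => ?_⟩, e⟩
  · obtain ⟨r, k, c⟩ := TQ_ne hl.pos (Finsupp.mem_support_iff.1 hq)
    obtain ⟨τ, s⟩ := h.ex r (Finsupp.mem_support_iff.2 k)
    rcases c with rfl | rfl
    · obtain ⟨r, rfl⟩ := IsAlgClosed.exists_pow_nat_eq r hl.pos
      obtain ⟨γ, -, s⟩ := key mt hN hl s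
      exact ⟨_, s none⟩
    · obtain ⟨γ, -, s⟩ := key mt hN hl s
      exact ⟨_, by simpa [nx] using s (some ⟨0, hl.pos⟩)⟩
  · obtain ⟨r, rfl⟩ := IsAlgClosed.exists_pow_nat_eq q hl.pos
    obtain ⟨γ, k, s'⟩ := key mt hN hl s
    have i : P004Z.Ar.Inv N (cs n) := fun γ k z => congrArg (Int.cast : ℤ → ℂ) (inv mt hN h γ k z)
    have := i.tdiv hl hM γ k τ
    rw [← e] at this
    refine (Int.cast_injective this).symm.trans ?_
    rw [TQ_apply hl.pos, sum_roots _ hl.pos (zl (ι := ι) hl.pos)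
      fun c => s.ne (by rw [c, zero_pow hl.pos.ne'])]
    simp only [Fintype.sum_option, h.eq _ _ (s' _), nx]
  · obtain ⟨j, -, c⟩ := Finset.exists_ne_zero_of_sum_ne_zero k
    obtain ⟨q, s⟩ := h.sup _ c
    exact back mt hN hl hM s

omit mt hN in
theorem add (h : Rp ι N μ n) (h' : Rp ι N μ' n') : Rp ι N (μ + μ') (n + n') :=
  ⟨fun q k => (Finset.mem_union.1 (Finsupp.support_add k)).elim (h.ex q) (h'.ex q),
    fun q τ s => by rw [Pi.add_apply, Finsupp.add_apply, h.eq q τ s, h'.eq q τ s], fun τ k => by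
    by_cases e : n τ = 0
    · exact h'.sup τ fun c => k (by rw [Pi.add_apply, e, c, add_zero])
    · exact h.sup τ e⟩

omit mt hN in
theorem smul (h : Rp ι N μ n) (m : ℤ) : Rp ι N (m • μ) (m • n) :=
  ⟨fun q k => h.ex q (Finsupp.support_smul k),
    fun q τ s => by rw [Pi.smul_apply, Finsupp.smul_apply, h.eq q τ s],
    fun τ k => h.sup τ (right_ne_zero_of_mul k)⟩

end Hk

theorem Tq_eq (l : ℕ) : Tq l = TQ l := rfl

theorem Hq_eq {S : ℕ} (P : FreeAlgebra ℤ (P004Z.PA S)) : Hq P = hq P := rfl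

/-- **row HK** -/
theorem hk (mt : MT) : HK := by
  intro ι N S P μ n hN hS
  induction P using FreeAlgebra.induction generalizing μ n with
  | grade0 r => exact fun h => ⟨r • n, by simpa [Hq] using Hk.smul h r, funext fun z => by
      simp [Hd, cs]⟩
  | grade1 l =>
    intro h
    rw [Hq, Hd, FreeAlgebra.lift_ι_apply, FreeAlgebra.lift_ι_apply]
    exact Hk.step mt hN l.2.1 (fun k => l.2.2 (k.trans hS)) h
  | mul a b ha hb =>
    intro h
    obtain ⟨n1, h1, e1⟩ := hb μ n h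
    obtain ⟨n2, h2, e2⟩ := ha _ n1 h1
    exact ⟨n2, by simpa [Hq] using h2, by rw [e2, e1]; simp [Hd]⟩
  | add a b ha hb =>
    intro h
    obtain ⟨n1, h1, e1⟩ := ha μ n h
    obtain ⟨n2, h2, e2⟩ := hb μ n h
    refine ⟨n1 + n2, by simpa [Hq] using Hk.add h1 h2, ?_⟩
    rw [Hd, map_add, LinearMap.add_apply, ← Hd, ← Hd, ← e1, ← e2]
    exact funext fun z => Int.cast_add _ _

end Vale.Agent.P014T.Rc
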